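import Vale.Agent.P182.H578.NullU1
import Vale.Agent.P182.H588.Uu

/-!
# The flows of the null case without splitting

`τ` is an element of the kernel, `W` its stable image, `S_a = Res τ a`, `ξ` a section of
`(v_a) ↦ ∑ S_a v_a` on `W`.  For every `Y : Fin 3 → End V` skew with values in `W` and
`∑ [Y_a, S_a] = 0` there is an explicit skew matrix `η` with `η τ = ∑ Y_a G_a τ` (notes of
helper563 and helper952 on the case `I ≠ 0`).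
-/

namespace Vale.Agent.P182.H952

open Module Matrix Vale.Agent.P182.H533 Vale.Agent.P182.B1 Vale.Agent.P182.H922
  Vale.Agent.P182.H578 Vale.Agent.P182.H588

/-! ### Adjoints -/

section adj

variable {L V : Type*} [Field L] [AddCommGroup V] [Module L V] [FiniteDimensional L V]
  {q : V →ₗ[L] V →ₗ[L] L}

/-- the adjoint -/
noncomputable def adj (hq : IsForm q) (A : End L V) : End L V :=
  Classical.choose (hq.exists_end (q.compl₂ A))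

theorem adj_left (hq : IsForm q) (A : End L V) (u v : V) : q (adj hq A u) v = q u (A v) :=
  Classical.choose_spec (hq.exists_end (q.compl₂ A)) u v

theorem adj_right (hq : IsForm q) (A : End L V) (u v : V) : q (A u) v = q u (adj hq A v) := by
  rw [hq.symm, ← adj_left hq, hq.symm]

theorem adj_uniq (hq : IsForm q) {A B : End L V} (h : ∀ u v, q (B u) v = q u (A v)) :
    adj hq A = B := LinearMap.ext fun u => hq.ext fun v => by rw [adj_left, h]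

theorem adj_adj (hq : IsForm q) (A : End L V) : adj hq (adj hq A) = A :=
  adj_uniq hq fun u v => adj_right hq A u v

theorem adj_mul (hq : IsForm q) (A B : End L V) : adj hq (A * B) = adj hq B * adj hq A :=
  adj_uniq hq fun u v => by
    rw [Module.End.mul_apply, Module.End.mul_apply, adj_left, adj_left]

theorem adj_add (hq : IsForm q) (A B : End L V) : adj hq (A + B) = adj hq A + adj hq B :=
  adj_uniq hq fun u v => by
    rw [LinearMap.add_apply, LinearMap.add_apply, map_add, map_add, LinearMap.add_apply, adj_left,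
      adj_left]

theorem adj_neg (hq : IsForm q) (A : End L V) : adj hq (-A) = -adj hq A :=
  adj_uniq hq fun u v => by
    rw [LinearMap.neg_apply, LinearMap.neg_apply, map_neg, map_neg, LinearMap.neg_apply, adj_left]

theorem adj_sub (hq : IsForm q) (A B : End L V) : adj hq (A - B) = adj hq A - adj hq B := by
  rw [sub_eq_add_neg, adj_add, adj_neg, ← sub_eq_add_neg]

theorem adj_zero (hq : IsForm q) : adj hq (0 : End L V) = 0 :=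
  adj_uniq hq fun u v => by simp

theorem adj_one (hq : IsForm q) : adj hq (1 : End L V) = 1 :=
  adj_uniq hq fun u v => by simp

theorem adj_smul (hq : IsForm q) (c : L) (A : End L V) : adj hq (c • A) = c • adj hq A :=
  adj_uniq hq fun u v => by
    rw [LinearMap.smul_apply, LinearMap.smul_apply, map_smul, map_smul, LinearMap.smul_apply,
      adj_left]

theorem adj_sum (hq : IsForm q) {ι : Type*} (s : Finset ι) (A : ι → End L V) :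
    adj hq (∑ i ∈ s, A i) = ∑ i ∈ s, adj hq (A i) := by
  classical
  induction s using Finset.induction_on with
  | empty => rw [Finset.sum_empty, Finset.sum_empty, adj_zero]
  | insert a t ha ih => rw [Finset.sum_insert ha, Finset.sum_insert ha, adj_add, ih]

theorem adj_SA (hq : IsForm q) {A : End L V} (h : IsSA q A) : adj hq A = A :=
  adj_uniq hq h

theorem adj_Sk (hq : IsForm q) {A : End L V} (h : IsSk q A) : adj hq A = -A :=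
  adj_uniq hq fun u v => by
    rw [LinearMap.neg_apply, map_neg, LinearMap.neg_apply, h, neg_neg]

end adj

/-! ### The skew matrix -/

section dot

variable {L J : Type*} [Field L] [Fintype J]

theorem vext [DecidableEq J] {x y : J → L} (h : ∀ z : J → L, z ⬝ᵥ x = z ⬝ᵥ y) : x = y := by
  funext j
  have := h (Pi.single j 1)
  rwa [single_one_dotProduct, single_one_dotProduct] at this

theorem dot_symm {G : Matrix J J L} (hG : Gᵀ = G) (x y : J → L) :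
    (G *ᵥ x) ⬝ᵥ y = x ⬝ᵥ (G *ᵥ y) := by
  rw [Matrix.dotProduct_mulVec, ← Matrix.mulVec_transpose, hG]

end dot

section eta

variable {L V J : Type*} [Field L] [AddCommGroup V] [Module L V] [FiniteDimensional L V]
  [Fintype J] [DecidableEq J] {𝒟 : Cfg L V J}

/-- the base: a family `τ`, a space `W` stable under the residues, and a section `ξ` -/
structure Bs (𝒟 : Cfg L V J) (τ : J → V) (W : Submodule L V) (ξ : Fin 3 → End L V) : Prop where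
  mapS : ∀ a, ∀ w ∈ W, Res 𝒟 τ a w ∈ W
  mapξ : ∀ a, ∀ w ∈ W, ξ a w ∈ W
  sec : ∀ w ∈ W, ∑ a, Res 𝒟 τ a (ξ a w) = w

/-- the variation: skew operators with values in `W` with `∑ [Y_a, S_a] = 0` -/
structure Yd (𝒟 : Cfg L V J) (τ : J → V) (W : Submodule L V) (Y : Fin 3 → End L V) : Prop where
  sk : ∀ a, IsSk 𝒟.q (Y a)
  mem : ∀ a v, Y a v ∈ W
  sum : ∑ a, (Y a * Res 𝒟 τ a - Res 𝒟 τ a * Y a) = 0

/-- a family `r` with operators `D'`, `Q` on `W`: `r^* w = τ^* D' w`, `r G_a τ^* w = Q_a w` -/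
structure Fd (𝒟 : Cfg L V J) (τ : J → V) (W : Submodule L V) (r : J → V) (D' : End L V)
    (Q : Fin 3 → End L V) : Prop where
  adj : ∀ w ∈ W, ∀ l, 𝒟.q (r l) w = 𝒟.q (τ l) (D' w)
  mapD : ∀ w ∈ W, D' w ∈ W
  op : ∀ a, ∀ w ∈ W, opr 𝒟.q (Tt L r) (Gm 𝒟.arm 𝒟.Ω a) (Tt L τ) w = Q a w
  mapQ : ∀ a, ∀ w ∈ W, Q a w ∈ W

/-- `Θ = ∑ ξ_b^* τ G_b` -/
noncomputable def Th (hG : 𝒟.Good) (τ : J → V) (ξ : Fin 3 → End L V) : (J → L) →ₗ[L] V :=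
  ∑ b, adj hG.form (ξ b) ∘ₗ Tt L τ ∘ₗ (Gm 𝒟.arm 𝒟.Ω b).mulVecLin

theorem Th_apply (hG : 𝒟.Good) (τ : J → V) (ξ : Fin 3 → End L V) (x : J → L) :
    Th hG τ ξ x = ∑ b, adj hG.form (ξ b) (Tt L τ (Gm 𝒟.arm 𝒟.Ω b *ᵥ x)) := by
  rw [Th, LinearMap.sum_apply]
  rfl

/-- the linear map of the skew matrix -/
noncomputable def Ee (hG : 𝒟.Good) (τ : J → V) (ξ Y : Fin 3 → End L V) :
    (J → L) →ₗ[L] (J → L) :=
  ad 𝒟.q (Th hG τ ξ) ∘ₗ (∑ a, Y a * Res 𝒟 τ a : End L V) ∘ₗ Th hG τ ξ -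
    ∑ a, ((Gm 𝒟.arm 𝒟.Ω a).mulVecLin ∘ₗ ad 𝒟.q (Tt L τ) ∘ₗ Y a ∘ₗ Th hG τ ξ +
      ad 𝒟.q (Th hG τ ξ) ∘ₗ Y a ∘ₗ Tt L τ ∘ₗ (Gm 𝒟.arm 𝒟.Ω a).mulVecLin)

theorem Ee_apply (hG : 𝒟.Good) (τ : J → V) (ξ Y : Fin 3 → End L V) (x : J → L) :
    Ee hG τ ξ Y x = ad 𝒟.q (Th hG τ ξ) ((∑ a, Y a * Res 𝒟 τ a : End L V) (Th hG τ ξ x)) -
      ∑ a, (Gm 𝒟.arm 𝒟.Ω a *ᵥ ad 𝒟.q (Tt L τ) (Y a (Th hG τ ξ x)) +
        ad 𝒟.q (Th hG τ ξ) (Y a (Tt L τ (Gm 𝒟.arm 𝒟.Ω a *ᵥ x)))) := by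
  rw [Ee, LinearMap.sub_apply, LinearMap.sum_apply]
  rfl

theorem dot_Gm (hG : 𝒟.Good) (a : Fin 3) (x y : J → L) :
    (Gm 𝒟.arm 𝒟.Ω a *ᵥ x) ⬝ᵥ y = x ⬝ᵥ (Gm 𝒟.arm 𝒟.Ω a *ᵥ y) :=
  dot_symm (Gm_transpose 𝒟.arm hG.skew a) x y

theorem dot_Ee (hG : 𝒟.Good) (τ : J → V) (ξ Y : Fin 3 → End L V) (x y : J → L) :
    x ⬝ᵥ Ee hG τ ξ Y y =
      𝒟.q (Th hG τ ξ x) ((∑ a, Y a * Res 𝒟 τ a : End L V) (Th hG τ ξ y)) -
      ∑ a, (𝒟.q (Tt L τ (Gm 𝒟.arm 𝒟.Ω a *ᵥ x)) (Y a (Th hG τ ξ y)) +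
        𝒟.q (Th hG τ ξ x) (Y a (Tt L τ (Gm 𝒟.arm 𝒟.Ω a *ᵥ y)))) := by
  rw [Ee_apply, dotProduct_sub, dotProduct_sum, ← q_T]
  congr 1
  refine Finset.sum_congr rfl fun a _ => ?_
  rw [dotProduct_add, ← dot_Gm hG, ← q_T, ← q_T]

/-- `∑ Y_a S_a` is skew -/
theorem Yd.sk_sum {τ : J → V} {W : Submodule L V} {Y : Fin 3 → End L V} (hG : 𝒟.Good)
    (hY : Yd 𝒟 τ W Y) : IsSk 𝒟.q (∑ a, Y a * Res 𝒟 τ a) := by
  have hS : ∀ a, IsSA 𝒟.q (Res 𝒟 τ a) := fun a => Sop_SA 𝒟.arm hG.form (Tt L τ) hG.skew a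
  have h1 : ∑ a, Y a * Res 𝒟 τ a = ∑ a, Res 𝒟 τ a * Y a := by
    have := hY.sum
    rwa [Finset.sum_sub_distrib, sub_eq_zero] at this
  intro u v
  conv_lhs => rw [h1]
  rw [LinearMap.sum_apply, LinearMap.sum_apply, map_sum, map_sum, LinearMap.sum_apply,
    ← Finset.sum_neg_distrib]
  refine Finset.sum_congr rfl fun a _ => ?_
  rw [Module.End.mul_apply, Module.End.mul_apply, hS a, hY.sk a]

omit [FiniteDimensional L V] in
theorem Yd.flip {τ : J → V} {W : Submodule L V} {Y : Fin 3 → End L V} (hG : 𝒟.Good)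
    (hY : Yd 𝒟 τ W Y) (a : Fin 3) (u v : V) : 𝒟.q u (Y a v) = - 𝒟.q v (Y a u) := by
  rw [hG.form.symm, hY.sk]

/-- the matrix is skew -/
theorem dot_Ee_skew (hG : 𝒟.Good) {τ : J → V} {W : Submodule L V} (ξ : Fin 3 → End L V)
    {Y : Fin 3 → End L V} (hY : Yd 𝒟 τ W Y) (x y : J → L) :
    x ⬝ᵥ Ee hG τ ξ Y y = - (Ee hG τ ξ Y x ⬝ᵥ y) := by
  have hq := hG.form
  rw [dotProduct_comm (Ee hG τ ξ Y x), dot_Ee, dot_Ee]
  have h1 : 𝒟.q (Th hG τ ξ x) ((∑ a, Y a * Res 𝒟 τ a : End L V) (Th hG τ ξ y)) =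
      - 𝒟.q (Th hG τ ξ y) ((∑ a, Y a * Res 𝒟 τ a : End L V) (Th hG τ ξ x)) := by
    rw [hq.symm (Th hG τ ξ x), hY.sk_sum hG]
  have h2 : ∑ a, (𝒟.q (Tt L τ (Gm 𝒟.arm 𝒟.Ω a *ᵥ x)) (Y a (Th hG τ ξ y)) +
        𝒟.q (Th hG τ ξ x) (Y a (Tt L τ (Gm 𝒟.arm 𝒟.Ω a *ᵥ y)))) =
      - ∑ a, (𝒟.q (Tt L τ (Gm 𝒟.arm 𝒟.Ω a *ᵥ y)) (Y a (Th hG τ ξ x)) +
        𝒟.q (Th hG τ ξ y) (Y a (Tt L τ (Gm 𝒟.arm 𝒟.Ω a *ᵥ x)))) := by
    rw [← Finset.sum_neg_distrib]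
    refine Finset.sum_congr rfl fun a _ => ?_
    rw [hY.flip hG a (Tt L τ (Gm 𝒟.arm 𝒟.Ω a *ᵥ x)), hY.flip hG a (Tt L τ (Gm 𝒟.arm 𝒟.Ω a *ᵥ y))]
    ring
  rw [h1, h2]
  ring

/-- the skew matrix -/
noncomputable def Et (hG : 𝒟.Good) (τ : J → V) (ξ Y : Fin 3 → End L V) : Matrix J J L :=
  LinearMap.toMatrix' (Ee hG τ ξ Y)

theorem Et_mulVec (hG : 𝒟.Good) (τ : J → V) (ξ Y : Fin 3 → End L V) (x : J → L) :
    Et hG τ ξ Y *ᵥ x = Ee hG τ ξ Y x := LinearMap.toMatrix'_mulVec _ _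

theorem Et_skew (hG : 𝒟.Good) {τ : J → V} {W : Submodule L V} (ξ : Fin 3 → End L V)
    {Y : Fin 3 → End L V} (hY : Yd 𝒟 τ W Y) : (Et hG τ ξ Y)ᵀ = -Et hG τ ξ Y := by
  apply Matrix.ext_of_mulVec_single
  intro j
  apply vext
  intro z
  rw [Matrix.neg_mulVec, dotProduct_neg, Matrix.dotProduct_mulVec, Matrix.vecMul_transpose,
    Et_mulVec, Et_mulVec, dot_Ee_skew hG ξ hY, neg_neg]

/-- the adjoint of `Θ` -/
theorem ad_Th (hG : 𝒟.Good) (τ : J → V) (ξ : Fin 3 → End L V) (v : V) :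
    ad 𝒟.q (Th hG τ ξ) v = ∑ b, Gm 𝒟.arm 𝒟.Ω b *ᵥ ad 𝒟.q (Tt L τ) (ξ b v) := by
  apply vext
  intro z
  rw [← q_T, Th_apply, map_sum, LinearMap.sum_apply, dotProduct_sum]
  refine Finset.sum_congr rfl fun b _ => ?_
  rw [adj_left, q_T, dot_Gm hG]

omit [FiniteDimensional L V] in
theorem opr_adj1 (hG : 𝒟.Good) (r r' : J → V) (a : Fin 3) (u v : V) :
    𝒟.q (opr 𝒟.q (Tt L r) (Gm 𝒟.arm 𝒟.Ω a) (Tt L r') u) v =
      𝒟.q u (opr 𝒟.q (Tt L r') (Gm 𝒟.arm 𝒟.Ω a) (Tt L r) v) := by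
  rw [opr_adj hG.form, Gm_transpose 𝒟.arm hG.skew]

section fam

variable {τ : J → V} {W : Submodule L V} {ξ Y : Fin 3 → End L V} {r : J → V} {D' : End L V}
  {Q : Fin 3 → End L V}

/-- the operator `T = ∑ Q_b ξ_b` -/
def TT (ξ Q : Fin 3 → End L V) : End L V := ∑ b, Q b * ξ b

omit [FiniteDimensional L V] in
theorem TT_apply (ξ Q : Fin 3 → End L V) (v : V) : TT ξ Q v = ∑ b, Q b (ξ b v) := by
  rw [TT, LinearMap.sum_apply]; rfl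

omit [FiniteDimensional L V] in
theorem TT_mem (hB : Bs 𝒟 τ W ξ) (hr : Fd 𝒟 τ W r D' Q) {w : V} (hw : w ∈ W) : TT ξ Q w ∈ W := by
  rw [TT_apply]
  exact sum_mem fun b _ => hr.mapQ b _ (hB.mapξ b w hw)

/-- pairing of `Θ (r^* v)` with `W` -/
theorem q_Th_ad (hG : 𝒟.Good) (hB : Bs 𝒟 τ W ξ) (hr : Fd 𝒟 τ W r D' Q) (v : V) {w : V}
    (hw : w ∈ W) : 𝒟.q (Th hG τ ξ (ad 𝒟.q (Tt L r) v)) w = 𝒟.q v (TT ξ Q w) := by
  rw [Th_apply, TT_apply, map_sum, map_sum, LinearMap.sum_apply]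
  refine Finset.sum_congr rfl fun b _ => ?_
  rw [adj_left, ← hr.op b _ (hB.mapξ b w hw), ← opr_adj1 hG]
  rfl

/-- an operator which is skew with values in `W`, applied to `Θ (r^* v)` -/
theorem Y_Th_ad (hG : 𝒟.Good) (hB : Bs 𝒟 τ W ξ) (hr : Fd 𝒟 τ W r D' Q) {X : End L V}
    (hX : IsSk 𝒟.q X) (hXW : ∀ v, X v ∈ W) (v : V) :
    X (Th hG τ ξ (ad 𝒟.q (Tt L r) v)) = X (adj hG.form (TT ξ Q) v) := by
  apply hG.form.ext
  intro u
  rw [hX, hX, q_Th_ad hG hB hr v (hXW u), adj_left]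

theorem Y_opr_ad (hG : 𝒟.Good) (hr : Fd 𝒟 τ W r D' Q) {X : End L V}
    (hX : IsSk 𝒟.q X) (hXW : ∀ v, X v ∈ W) (a : Fin 3) (v : V) :
    X (Tt L τ (Gm 𝒟.arm 𝒟.Ω a *ᵥ ad 𝒟.q (Tt L r) v)) = X (adj hG.form (Q a) v) := by
  apply hG.form.ext
  intro u
  rw [hX, hX, adj_left, ← hr.op a _ (hXW u), ← opr_adj1 hG]
  rfl

/-- the adjoint of the correction `B_a` -/
noncomputable def Bad (hG : 𝒟.Good) (τ : J → V) (ξ Y : Fin 3 → End L V) (D' : End L V)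
    (Q : Fin 3 → End L V) (a : Fin 3) : End L V :=
  D' * Y a - Y a * adj hG.form (TT ξ Q) -
    ξ a * ∑ c, Y c * (adj hG.form (Q c) - Res 𝒟 τ c * adj hG.form (TT ξ Q))

/-- the matrix on `r^* v` -/
theorem Ee_ad (hG : 𝒟.Good) (hB : Bs 𝒟 τ W ξ) (hY : Yd 𝒟 τ W Y) (hr : Fd 𝒟 τ W r D' Q) (v : V) :
    Ee hG τ ξ Y (ad 𝒟.q (Tt L r) v) = ∑ a, Gm 𝒟.arm 𝒟.Ω a *ᵥ
      (ad 𝒟.q (Tt L τ) (Bad hG τ ξ Y D' Q a v) - ad 𝒟.q (Tt L r) (Y a v)) := by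
  have hS : ∀ v, (∑ a, Y a * Res 𝒟 τ a : End L V) v ∈ W := fun v => by
    rw [LinearMap.sum_apply]
    exact sum_mem fun a _ => hY.mem a _
  rw [Ee_apply, Y_Th_ad hG hB hr (hY.sk_sum hG) hS]
  have h1 : ∀ a, (Gm 𝒟.arm 𝒟.Ω a *ᵥ ad 𝒟.q (Tt L τ) (Y a (Th hG τ ξ (ad 𝒟.q (Tt L r) v))) +
        ad 𝒟.q (Th hG τ ξ) (Y a (Tt L τ (Gm 𝒟.arm 𝒟.Ω a *ᵥ ad 𝒟.q (Tt L r) v)))) =
      Gm 𝒟.arm 𝒟.Ω a *ᵥ ad 𝒟.q (Tt L τ) (Y a (adj hG.form (TT ξ Q) v)) +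
        ad 𝒟.q (Th hG τ ξ) (Y a (adj hG.form (Q a) v)) := fun a => by
    rw [Y_Th_ad hG hB hr (hY.sk a) (hY.mem a), Y_opr_ad hG hr (hY.sk a) (hY.mem a)]
  rw [Finset.sum_congr rfl fun a _ => h1 a, Finset.sum_add_distrib, ← map_sum,
    sub_add_eq_sub_sub_swap, ← map_sub]
  set Z : V := ∑ c, (Y c * (adj hG.form (Q c) - Res 𝒟 τ c * adj hG.form (TT ξ Q))) v with hZ
  have h2 : (∑ a, Y a * Res 𝒟 τ a : End L V) (adj hG.form (TT ξ Q) v) -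
      ∑ x, Y x (adj hG.form (Q x) v) = -Z := by
    rw [hZ, LinearMap.sum_apply, ← Finset.sum_sub_distrib, ← Finset.sum_neg_distrib]
    refine Finset.sum_congr rfl fun a _ => ?_
    rw [Module.End.mul_apply, Module.End.mul_apply, LinearMap.sub_apply, Module.End.mul_apply,
      map_sub]
    abel
  rw [h2, map_neg, ad_Th, ← Finset.sum_neg_distrib, ← Finset.sum_sub_distrib]
  refine Finset.sum_congr rfl fun a _ => ?_
  rw [← Matrix.mulVec_neg, ← Matrix.mulVec_sub]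
  congr 1
  have h3 : ad 𝒟.q (Tt L r) (Y a v) = ad 𝒟.q (Tt L τ) (D' (Y a v)) := by
    funext k
    rw [ad_apply, ad_apply, Tt_single, Tt_single, hr.adj _ (hY.mem a v)]
  rw [h3, ← map_neg, ← map_sub, ← map_sub]
  congr 1
  rw [Bad, LinearMap.sub_apply, LinearMap.sub_apply, Module.End.mul_apply, Module.End.mul_apply,
    Module.End.mul_apply, LinearMap.sum_apply, ← hZ]
  abel


/-- the correction `B_a` -/
noncomputable def Bo (hG : 𝒟.Good) (τ : J → V) (ξ Y : Fin 3 → End L V) (D' : End L V)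
    (Q : Fin 3 → End L V) (a : Fin 3) : End L V := adj hG.form (Bad hG τ ξ Y D' Q a)

theorem q_Bo (hG : 𝒟.Good) (a : Fin 3) (u v : V) :
    𝒟.q (Bo hG τ ξ Y D' Q a u) v = 𝒟.q u (Bad hG τ ξ Y D' Q a v) := adj_left _ _ _ _

/-- the explicit formula for the correction -/
theorem Bo_eq (hG : 𝒟.Good) (hY : Yd 𝒟 τ W Y) (a : Fin 3) :
    Bo hG τ ξ Y D' Q a = TT ξ Q * Y a - Y a * adj hG.form D' +
      (∑ c, (Q c - TT ξ Q * Res 𝒟 τ c) * Y c) * adj hG.form (ξ a) := by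
  have hS : ∀ c, adj hG.form (Res 𝒟 τ c) = Res 𝒟 τ c := fun c =>
    adj_SA hG.form (Sop_SA 𝒟.arm hG.form (Tt L τ) hG.skew c)
  rw [Bo, Bad, adj_sub, adj_sub, adj_mul, adj_mul, adj_mul, adj_adj, adj_Sk hG.form (hY.sk a),
    adj_sum]
  have h1 : ∑ c, adj hG.form (Y c * (adj hG.form (Q c) - Res 𝒟 τ c * adj hG.form (TT ξ Q))) =
      - ∑ c, (Q c - TT ξ Q * Res 𝒟 τ c) * Y c := by
    rw [← Finset.sum_neg_distrib]
    refine Finset.sum_congr rfl fun c _ => ?_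
    rw [adj_mul, adj_sub, adj_mul, adj_adj, adj_adj, hS, adj_Sk hG.form (hY.sk c), mul_neg]
  rw [h1]
  noncomm_ring

/-- the correction has values in `W` -/
theorem Bo_mem (hG : 𝒟.Good) (hB : Bs 𝒟 τ W ξ) (hY : Yd 𝒟 τ W Y) (hr : Fd 𝒟 τ W r D' Q)
    (a : Fin 3) (v : V) : Bo hG τ ξ Y D' Q a v ∈ W := by
  rw [Bo_eq hG hY, LinearMap.add_apply, LinearMap.sub_apply, Module.End.mul_apply,
    Module.End.mul_apply, Module.End.mul_apply, LinearMap.sum_apply]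
  refine add_mem (sub_mem (TT_mem hB hr (hY.mem _ _)) (hY.mem _ _)) (sum_mem fun c _ => ?_)
  rw [Module.End.mul_apply, LinearMap.sub_apply, Module.End.mul_apply]
  exact sub_mem (hr.mapQ _ _ (hY.mem _ _)) (TT_mem hB hr (hB.mapS _ _ (hY.mem _ _)))

/-- the family `τ` itself -/
theorem Fd.self (hB : Bs 𝒟 τ W ξ) : Fd 𝒟 τ W τ 1 (Res 𝒟 τ) where
  adj w _ l := rfl
  mapD w hw := hw
  op a w _ := rfl
  mapQ a w hw := hB.mapS a w hw

/-- the correction of `τ` itself vanishes -/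
theorem Bad_self (hG : 𝒟.Good) (hB : Bs 𝒟 τ W ξ) (hY : Yd 𝒟 τ W Y) (a : Fin 3) :
    Bad hG τ ξ Y 1 (Res 𝒟 τ) a = 0 := by
  have hS : ∀ c, adj hG.form (Res 𝒟 τ c) = Res 𝒟 τ c := fun c =>
    adj_SA hG.form (Sop_SA 𝒟.arm hG.form (Tt L τ) hG.skew c)
  have hT : ∀ w ∈ W, TT ξ (Res 𝒟 τ) w = w := fun w hw => by
    rw [TT_apply]; exact hB.sec w hw
  have key : ∀ X : End L V, IsSk 𝒟.q X → (∀ v, X v ∈ W) →
      X * adj hG.form (TT ξ (Res 𝒟 τ)) = X := by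
    intro X hX hXW
    ext v
    apply hG.form.ext
    intro u
    rw [Module.End.mul_apply, hX, adj_left, hT _ (hXW u), ← hX]
  have hsum : ∀ v, (∑ a, Y a * Res 𝒟 τ a : End L V) v ∈ W := fun v => by
    rw [LinearMap.sum_apply]
    exact sum_mem fun a _ => hY.mem a _
  have h2 : ∑ c, Y c * (adj hG.form (Res 𝒟 τ c) - Res 𝒟 τ c * adj hG.form (TT ξ (Res 𝒟 τ))) =
      0 := by
    have h3 := key _ (hY.sk_sum hG) hsum
    rw [← sub_eq_zero, Finset.sum_mul, ← Finset.sum_sub_distrib] at h3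
    rw [← neg_eq_zero, ← Finset.sum_neg_distrib, ← h3]
    refine Finset.sum_congr rfl fun c _ => ?_
    rw [hS]
    noncomm_ring
  rw [Bad, h2, key _ (hY.sk a) (hY.mem a), one_mul, sub_self, mul_zero, sub_zero]

theorem Bo_self (hG : 𝒟.Good) (hB : Bs 𝒟 τ W ξ) (hY : Yd 𝒟 τ W Y) (a : Fin 3) :
    Bo hG τ ξ Y 1 (Res 𝒟 τ) a = 0 := by
  rw [Bo, Bad_self hG hB hY, adj_zero]

omit [FiniteDimensional L V] in
/-- the pairing of `[X.r]` with a vector -/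
theorem q_brak (hG : 𝒟.Good) {X X' : Fin 3 → End L V}
    (hX : ∀ a u v, 𝒟.q (X a u) v = 𝒟.q u (X' a v)) (r : J → V) (l : J) (v : V) :
    𝒟.q (X (𝒟.arm l) (𝒟.om r l) - ∑ k, 𝒟.Ω l k • X (𝒟.arm k) (r k)) v =
      (∑ a, Gm 𝒟.arm 𝒟.Ω a *ᵥ ad 𝒟.q (Tt L r) (X' a v)) l := by
  have h1 : ∀ a, (Gm 𝒟.arm 𝒟.Ω a *ᵥ ad 𝒟.q (Tt L r) (X' a v)) l =
      ∑ k, ((if 𝒟.arm l = a then 𝒟.Ω l k * 𝒟.q (r k) (X' a v) else 0) -
        if 𝒟.arm k = a then 𝒟.Ω l k * 𝒟.q (r k) (X' a v) else 0) := by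
    intro a
    rw [Matrix.mulVec, dotProduct]
    refine Finset.sum_congr rfl fun k _ => ?_
    rw [Gm_apply, ad_apply, Tt_single]
    split_ifs <;> ring
  rw [Finset.sum_apply, Finset.sum_congr rfl fun a _ => h1 a, Finset.sum_comm, map_sub,
    LinearMap.sub_apply, map_sum, LinearMap.sum_apply, hX, Cfg.om, map_sum, LinearMap.sum_apply,
    ← Finset.sum_sub_distrib]
  refine Finset.sum_congr rfl fun k _ => ?_
  rw [Finset.sum_sub_distrib, Finset.sum_ite_eq, Finset.sum_ite_eq, if_pos (Finset.mem_univ _),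
    if_pos (Finset.mem_univ _), map_smul, map_smul, LinearMap.smul_apply, LinearMap.smul_apply, hX,
    smul_eq_mul, smul_eq_mul]

/-- **The discrepancy identity.** -/
theorem Et_disc (hG : 𝒟.Good) (hB : Bs 𝒟 τ W ξ) (hY : Yd 𝒟 τ W Y) (hr : Fd 𝒟 τ W r D' Q)
    (l : J) : ∑ k, Et hG τ ξ Y l k • r k =
      (Y (𝒟.arm l) (𝒟.om r l) - ∑ k, 𝒟.Ω l k • Y (𝒟.arm k) (r k)) +
      (Bo hG τ ξ Y D' Q (𝒟.arm l) (𝒟.om τ l) -
        ∑ k, 𝒟.Ω l k • Bo hG τ ξ Y D' Q (𝒟.arm k) (τ k)) := by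
  apply hG.form.ext
  intro v
  have e4 : 𝒟.q (∑ k, Et hG τ ξ Y l k • r k) v = (Et hG τ ξ Y *ᵥ ad 𝒟.q (Tt L r) v) l := by
    rw [Matrix.mulVec, dotProduct, map_sum, LinearMap.sum_apply]
    refine Finset.sum_congr rfl fun k _ => ?_
    rw [ad_apply, Tt_single, map_smul, LinearMap.smul_apply, smul_eq_mul]
  have h1 : ∀ a u v, 𝒟.q (Y a u) v = 𝒟.q u ((-Y a) v) := fun a u v => by
    rw [hY.sk, LinearMap.neg_apply, map_neg]
  rw [e4, Et_mulVec, Ee_ad hG hB hY hr, map_add, LinearMap.add_apply,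
    q_brak hG (X := Y) (X' := fun a => -Y a) h1,
    q_brak hG (X := Bo hG τ ξ Y D' Q) (X' := Bad hG τ ξ Y D' Q) (fun a u v => q_Bo hG a u v),
    ← Pi.add_apply, ← Finset.sum_add_distrib]
  refine congrFun (Finset.sum_congr rfl fun a _ => ?_) l
  rw [LinearMap.neg_apply, map_neg, Matrix.mulVec_neg, Matrix.mulVec_sub]
  abel

/-- the discrepancy identity for `τ` -/
theorem Et_self (hG : 𝒟.Good) (hB : Bs 𝒟 τ W ξ) (hY : Yd 𝒟 τ W Y) (l : J) :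
    ∑ k, Et hG τ ξ Y l k • τ k =
      Y (𝒟.arm l) (𝒟.om τ l) - ∑ k, 𝒟.Ω l k • Y (𝒟.arm k) (τ k) := by
  rw [Et_disc hG hB hY (Fd.self hB), Bo_self hG hB hY]
  simp only [Bo_self hG hB hY, LinearMap.zero_apply, smul_zero, Finset.sum_const_zero, sub_zero,
    add_zero]

/-- the matrix kills the vector `σ` -/
theorem Et_sigma (hG : 𝒟.Good) (ξ Y : Fin 3 → End L V) {u σ : J → L}
    (hσ : ∀ a, ∃ c : L, Gm 𝒟.arm 𝒟.Ω a *ᵥ σ = c • u) (hτ : τ ∈ Uu V u) :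
    Et hG τ ξ Y *ᵥ σ = 0 := by
  have h0 : ∀ a, Tt L τ (Gm 𝒟.arm 𝒟.Ω a *ᵥ σ) = 0 := fun a => by
    obtain ⟨c, hc⟩ := hσ a
    have h0 : Tt L τ u = 0 := by rw [Tt_apply]; exact mem_Uu.1 hτ
    rw [hc, map_smul, h0, smul_zero]
  have h1 : Th hG τ ξ σ = 0 := by
    rw [Th_apply]
    exact Finset.sum_eq_zero fun b _ => by rw [h0, map_zero]
  rw [Et_mulVec, Ee_apply, h1]
  simp only [h0, map_zero, Matrix.mulVec_zero, add_zero, Finset.sum_const_zero, sub_zero]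

end fam

end eta

end Vale.Agent.P182.H952
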