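import Vale.Agent.P182.H952.Flow2

/-!
# The flows of the null case: the new families are good

`Flow.fd_rr`: if `r^* w = τ^* D' w` and `r G_a τ^* w = Q_a w` on `W`, then
`r''^* w = τ^* ([∇, D'] + D_R D') w` and
`r'' G_a τ^* w = ([∇, Q_a] + Q_a Y_a - Q_a D_R - Y_a Q_a - B_a S_a) w`.
`Flow.mem_rr`: the membership in the flags.
-/

namespace Vale.Agent.P182.H952

open Module Matrix Vale.Agent.P182.H533 Vale.Agent.P182.B1 Vale.Agent.P182.H922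
  Vale.Agent.P182.H578 Vale.Agent.P182.H588 Vale.Agent.P182.H338

section good

variable {L V J : Type*} [Field L] [AddCommGroup V] [Module L V] [FiniteDimensional L V]
  [Fintype J] [DecidableEq J] {𝒟 : Cfg L V J} {u σ : J → L} {τ : J → V} {W : Submodule L V}
  {ξ Y : Fin 3 → End L V} {r : J → V} {D' : End L V} {Q : Fin 3 → End L V}
  {n : H533.Conn 𝒟.q} {R : J → V} {DR : End L V} {QR : Fin 3 → End L V}

omit [FiniteDimensional L V] in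
/-- compatibility of `D'` and `Q` -/
theorem fd_compat (hG : 𝒟.Good) (hr : Fd 𝒟 τ W r D' Q) (a : Fin 3) {w w' : V} (hw : w ∈ W)
    (hw' : w' ∈ W) : 𝒟.q w (Q a w') = 𝒟.q (D' w) (Res 𝒟 τ a w') := by
  have h1 : ad 𝒟.q (Tt L r) w = ad 𝒟.q (Tt L τ) (D' w) := by
    funext k
    rw [ad_apply, ad_apply, Tt_single, Tt_single, hr.adj _ hw]
  rw [← hr.op a _ hw', hG.form.symm, hG.form.symm (D' w)]
  show 𝒟.q (Tt L r _) w = 𝒟.q (Tt L τ _) (D' w)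
  rw [q_T, q_T, h1]

/-- on `W` the difference of `adj T` and `D'` is killed by `Y_a` -/
theorem fd_Y_TT (hG : 𝒟.Good) (hB : Bs 𝒟 τ W ξ) (hr : Fd 𝒟 τ W r D' Q) {X : End L V}
    (hX : IsSk 𝒟.q X) (hXW : ∀ v, X v ∈ W) {w : V} (hw : w ∈ W) :
    X (adj hG.form (TT ξ Q) w) = X (D' w) := by
  apply hG.form.ext
  intro v
  rw [hX, hX, adj_left, TT_apply, map_sum]
  conv_rhs => rw [← hB.sec _ (hXW v), map_sum]
  congr 1
  exact Finset.sum_congr rfl fun b _ => fd_compat hG hr b hw (hB.mapξ b _ (hXW v))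

theorem fd_Y_Q (hG : 𝒟.Good) (hB : Bs 𝒟 τ W ξ) (hr : Fd 𝒟 τ W r D' Q) {X : End L V}
    (hX : IsSk 𝒟.q X) (hXW : ∀ v, X v ∈ W) (c : Fin 3) {w : V} (hw : w ∈ W) :
    X ((adj hG.form (Q c) - Res 𝒟 τ c * adj hG.form (TT ξ Q)) w) = 0 := by
  apply hG.form.nondeg
  intro v
  have hS : 𝒟.q (Res 𝒟 τ c (adj hG.form (TT ξ Q) w)) (X v) =
      𝒟.q w (TT ξ Q (Res 𝒟 τ c (X v))) := by
    have : 𝒟.q (Res 𝒟 τ c (adj hG.form (TT ξ Q) w)) (X v) =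
        𝒟.q (adj hG.form (TT ξ Q) w) (Res 𝒟 τ c (X v)) :=
      Sop_SA 𝒟.arm hG.form (Tt L τ) hG.skew c _ _
    rw [this, adj_left]
  have h1 : 𝒟.q w (TT ξ Q (Res 𝒟 τ c (X v))) = 𝒟.q (D' w) (Res 𝒟 τ c (X v)) := by
    have hz : Res 𝒟 τ c (X v) ∈ W := hB.mapS _ _ (hXW v)
    rw [TT_apply, map_sum]
    conv_rhs => rw [← hB.sec _ hz, map_sum]
    exact Finset.sum_congr rfl fun b _ => fd_compat hG hr b hw (hB.mapξ b _ hz)
  rw [hX, LinearMap.sub_apply, Module.End.mul_apply, map_sub, LinearMap.sub_apply, adj_left, hS,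
    h1, fd_compat hG hr c hw (hXW v), sub_self, neg_zero]

/-- the adjoint of `B_a` on `W` -/
theorem Bad_W (hG : 𝒟.Good) (hB : Bs 𝒟 τ W ξ) (hY : Yd 𝒟 τ W Y) (hr : Fd 𝒟 τ W r D' Q)
    (a : Fin 3) {w : V} (hw : w ∈ W) : Bad hG τ ξ Y D' Q a w = D' (Y a w) - Y a (D' w) := by
  have h1 : (∑ c, Y c * (adj hG.form (Q c) - Res 𝒟 τ c * adj hG.form (TT ξ Q)) : End L V) w =
      0 := by
    rw [LinearMap.sum_apply]
    exact Finset.sum_eq_zero fun c _ => fd_Y_Q hG hB hr (hY.sk c) (hY.mem c) c hw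
  rw [Bad, LinearMap.sub_apply, LinearMap.sub_apply, Module.End.mul_apply, Module.End.mul_apply,
    Module.End.mul_apply, h1, map_zero, sub_zero, fd_Y_TT hG hB hr (hY.sk a) (hY.mem a) hw]

/-- **The new family is good.** -/
theorem Flow.fd_rr (hG : 𝒟.Good) (hB : Bs 𝒟 τ W ξ) (hY : Yd 𝒟 τ W Y) (hr : Fd 𝒟 τ W r D' Q)
    (hF : Flow 𝒟 u τ Y (Et hG τ ξ Y) n R) (hW : ∀ w ∈ W, n.δ w ∈ W)
    (hR : Fd 𝒟 τ W R DR QR) :
    Fd 𝒟 τ W (rr 𝒟 n Y (Bo hG τ ξ Y D' Q) τ r) (brk n D' + DR * D')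
      (fun a => brk n (Q a) + Q a * Y a - Q a * DR - Y a * Q a -
        Bo hG τ ξ Y D' Q a * Res 𝒟 τ a) where
  adj w hw l := by
    have h1 := n.metric (r l) w
    have h2 := n.metric (τ l) (D' w)
    have h3 : 𝒟.q (Y (𝒟.arm l) (r l)) w = - 𝒟.q (τ l) (D' (Y (𝒟.arm l) w)) := by
      rw [hY.sk, hr.adj _ (hY.mem _ _)]
    have h4 : 𝒟.q (n.δ (τ l)) (D' w) =
        - 𝒟.q (τ l) (Y (𝒟.arm l) (D' w)) + 𝒟.q (τ l) (DR (D' w)) := by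
      rw [hF.tau, map_add, LinearMap.add_apply, hY.sk, hR.adj _ (hr.mapD _ hw)]
    rw [hr.adj _ hw, hr.adj _ (hW w hw)] at h1
    rw [rr_apply, map_sub, map_sub, LinearMap.sub_apply, LinearMap.sub_apply, h3, q_Bo,
      Bad_W hG hB hY hr _ hw, LinearMap.add_apply, Module.End.mul_apply, brk_apply, map_add,
      map_sub, map_sub]
    rw [h4] at h2
    linear_combination h2 - h1
  mapD w hw := by
    rw [LinearMap.add_apply, Module.End.mul_apply, brk_apply]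
    exact add_mem (sub_mem (hW _ (hr.mapD _ hw)) (hr.mapD _ (hW _ hw)))
      (hR.mapD _ (hr.mapD _ hw))
  op a w hw := by
    have e1 : opr 𝒟.q (Tt L r) (Gm 𝒟.arm 𝒟.Ω a) (Tt L R) w = Q a (DR w) := by
      rw [← hr.op a _ (hR.mapD _ hw)]
      have h1 : ad 𝒟.q (Tt L R) w = ad 𝒟.q (Tt L τ) (DR w) := by
        funext k
        rw [ad_apply, ad_apply, Tt_single, Tt_single, hR.adj _ hw]
      rw [opr_apply, opr_apply, h1]
    have e2 := hr.op a _ (hW w hw)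
    have e3 := hr.op a _ (hY.mem a w)
    have e4 := congrArg n.δ (hr.op a w hw)
    have e5 : Res 𝒟 τ a w = opr 𝒟.q (Tt L τ) (Gm 𝒟.arm 𝒟.Ω a) (Tt L τ) w := rfl
    have e6 := congrArg (Y a) (hr.op a w hw)
    simp only [LinearMap.sub_apply, LinearMap.add_apply, Module.End.mul_apply, brk_apply]
    rw [← e4, ← e2, ← e3, ← e1, ← e6, e5, opr_Tt 𝒟 hG.skew, opr_Tt 𝒟 hG.skew, opr_Tt 𝒟 hG.skew,
      opr_Tt 𝒟 hG.skew, opr_Tt 𝒟 hG.skew, opr_Tt 𝒟 hG.skew, map_sum, map_sum, map_sum,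
      ← Finset.sum_sub_distrib, ← Finset.sum_add_distrib, ← Finset.sum_sub_distrib,
      ← Finset.sum_sub_distrib, ← Finset.sum_sub_distrib]
    refine Finset.sum_congr rfl fun l hl => ?_
    have hl' : 𝒟.arm l = a := (Finset.mem_filter.1 hl).2
    have m1 : n.d (𝒟.q (𝒟.om τ l) w) = - 𝒟.q (𝒟.om τ l) (Y a w) + 𝒟.q (𝒟.om R l) w +
        𝒟.q (𝒟.om τ l) (n.δ w) := by
      rw [n.metric, hF.om, hl', map_add, LinearMap.add_apply, hY.sk]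
    have m2 : n.d (𝒟.q (τ l) w) = - 𝒟.q (τ l) (Y a w) + 𝒟.q (R l) w + 𝒟.q (τ l) (n.δ w) := by
      rw [n.metric, hF.tau, hl', map_add, LinearMap.add_apply, hY.sk]
    rw [hF.om_rr hG hB hY hr, rr_apply, hl', map_add, n.smul, n.smul, m1, m2, map_add, map_add,
      map_smul, map_smul, map_smul, map_smul]
    module
  mapQ a w hw := by
    simp only [LinearMap.sub_apply, LinearMap.add_apply, Module.End.mul_apply, brk_apply]
    exact sub_mem (sub_mem (sub_mem (add_mem (sub_mem (hW _ (hr.mapQ _ _ hw))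
      (hr.mapQ _ _ (hW _ hw))) (hr.mapQ _ _ (hY.mem _ _))) (hr.mapQ _ _ (hR.mapD _ hw)))
      (hY.mem _ _)) (Bo_mem hG hB hY hr _ _)

/-- the operators of a family of the kernel -/
theorem Fd.of_Ku
    (hK : KRel 𝒟.arm 𝒟.q 𝒟.Ω (Tt L '' (Ku 𝒟 u : Set (J → V)))) (hB : Bs 𝒟 τ W ξ)
    (hop : ∀ r r' : J → V, r ∈ Ku 𝒟 u → r' ∈ Ku 𝒟 u → ∀ a, ∀ w ∈ W,
      opr 𝒟.q (Tt L r) (Gm 𝒟.arm 𝒟.Ω a) (Tt L r') w ∈ W) (hτ : τ ∈ Ku 𝒟 u) (hR : R ∈ Ku 𝒟 u) :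
    Fd 𝒟 τ W R (∑ b, opr 𝒟.q (Tt L R) (Gm 𝒟.arm 𝒟.Ω b) (Tt L τ) * ξ b)
      (fun a => opr 𝒟.q (Tt L R) (Gm 𝒟.arm 𝒟.Ω a) (Tt L τ)) where
  adj w hw l := by
    have hτ' : Tt L τ ∈ Tt L '' (Ku 𝒟 u : Set (J → V)) := ⟨τ, hτ, rfl⟩
    have hR' : Tt L R ∈ Tt L '' (Ku 𝒟 u : Set (J → V)) := ⟨R, hR, rfl⟩
    conv_lhs => rw [← hB.sec w hw]
    rw [map_sum, LinearMap.sum_apply, map_sum]
    refine Finset.sum_congr rfl fun b _ => ?_
    rw [← Tt_single (L := L) R l, ← Tt_single (L := L) τ l]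
    exact hK.F1 _ hR' _ hτ' _ _
  mapD w hw := by
    rw [LinearMap.sum_apply]
    exact sum_mem fun b _ => hop _ _ hR hτ _ _ (hB.mapξ _ _ hw)
  op a w _ := rfl
  mapQ a w hw := hop _ _ hR hτ _ _ hw

/-- an operator killing `perp W` has its adjoint with values in `W` -/
theorem adj_mem (hq : IsForm 𝒟.q) {A : End L V} (hA : ∀ v ∈ perp 𝒟.q W, A v = 0) (v : V) :
    adj hq A v ∈ W := by
  have h1 : perp 𝒟.q (perp 𝒟.q W) = W := H62.perp_perp hq W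
  rw [← h1]
  intro w hw
  rw [adj_left, hA w hw, map_zero]

/-- **The membership in the flags.** -/
theorem Flow.mem_rr (hG : 𝒟.Good) (hB : Bs 𝒟 τ W ξ) (hY : Yd 𝒟 τ W Y) (hr : Fd 𝒟 τ W r D' Q)
    (hF : Flow 𝒟 u τ Y (Et hG τ ξ Y) n R)
    (hR : ∀ w ∈ W, ∀ l, 𝒟.q (R l) w = 𝒟.q (τ l) (DR w))
    (hR' : ∀ w ∈ W, ∀ l, 𝒟.q (𝒟.om R l) w = 𝒟.q (𝒟.om τ l) (DR w))
    {A : Fin 3 → End L V} (hA : ∀ a, ∀ v ∈ perp 𝒟.q W, A a v = 0) (l : J)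
    (h1 : A (𝒟.arm l) (τ l) - r l ∈ 𝒟.C l)
    (h2 : A (𝒟.arm l) (𝒟.om τ l) - 𝒟.om r l ∈ perp 𝒟.q (𝒟.C l)) :
    (brk n (A (𝒟.arm l)) + A (𝒟.arm l) * Y (𝒟.arm l) - Y (𝒟.arm l) * A (𝒟.arm l) +
      A (𝒟.arm l) * adj hG.form DR - Bo hG τ ξ Y D' Q (𝒟.arm l)) (τ l) -
        rr 𝒟 n Y (Bo hG τ ξ Y D' Q) τ r l ∈ 𝒟.C l ∧
    (brk n (A (𝒟.arm l)) + A (𝒟.arm l) * Y (𝒟.arm l) - Y (𝒟.arm l) * A (𝒟.arm l) +
      A (𝒟.arm l) * adj hG.form DR - Bo hG τ ξ Y D' Q (𝒟.arm l)) (𝒟.om τ l) -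
        𝒟.om (rr 𝒟 n Y (Bo hG τ ξ Y D' Q) τ r) l ∈ perp 𝒟.q (𝒟.C l) := by
  set a := 𝒟.arm l with ha
  have hq := hG.form
  have key : ∀ x y : V, (∀ w ∈ W, 𝒟.q y w = 𝒟.q x (DR w)) →
      A a (adj hq DR x) = A a y := by
    intro x y hxy
    apply hq.ext
    intro v
    rw [adj_right hq, adj_right hq (A a), adj_left, hxy _ (adj_mem hq (hA a) v)]
  have e1 : n.δ (A a (τ l) - r l) - Y a (A a (τ l) - r l) =
      (brk n (A a) + A a * Y a - Y a * A a + A a * adj hq DR - Bo hG τ ξ Y D' Q a) (τ l) -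
        rr 𝒟 n Y (Bo hG τ ξ Y D' Q) τ r l := by
    simp only [LinearMap.sub_apply, LinearMap.add_apply, Module.End.mul_apply]
    rw [map_sub, map_sub, brk_eq, hF.tau, map_add, key (τ l) (R l) (fun w hw => hR w hw l),
      rr_apply, ← ha]
    abel
  have e2 : n.δ (A a (𝒟.om τ l) - 𝒟.om r l) - Y a (A a (𝒟.om τ l) - 𝒟.om r l) =
      (brk n (A a) + A a * Y a - Y a * A a + A a * adj hq DR - Bo hG τ ξ Y D' Q a) (𝒟.om τ l) -
        𝒟.om (rr 𝒟 n Y (Bo hG τ ξ Y D' Q) τ r) l := by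
    simp only [LinearMap.sub_apply, LinearMap.add_apply, Module.End.mul_apply]
    rw [map_sub, map_sub, brk_eq, hF.om, map_add,
      key (𝒟.om τ l) (𝒟.om R l) (fun w hw => hR' w hw l), hF.om_rr hG hB hY hr, ← ha]
    abel
  have hC : 𝒟.C l = 𝒟.F a (𝒟.c l) := by rw [Cfg.C]
  rw [hC] at h1 h2 ⊢
  rw [← e1, ← e2]
  exact ⟨hF.flag _ _ _ h1, conn_perp n (hY.sk a) (hF.flag _ _) _ h2⟩

end good

end Vale.Agent.P182.H952
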