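import Vale.Agent.P182.H952.FlowG
import Vale.Agent.P182.H181.Base
import Vale.Agent.P182.H922.RowS
import Vale.Agent.P182.H534.C0b

/-!
# The flows at the bases `x t + y t'`

`bse_of_blk`: the bases `x t + y t'` off finitely many lines are good; `exists_FB`: the two-section
flow in the form used by helper534.
-/

namespace Vale.Agent.P182.H952

open Module Matrix Vale.Agent.P182.H533 Vale.Agent.P182.B1 Vale.Agent.P182.H922
  Vale.Agent.P182.H578 Vale.Agent.P182.H588 Vale.Agent.P182.H338 Vale.Agent.P182.H181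
  Vale.Agent.P182.H983

universe u v w

variable {L : Type u} {V : Type v} {J : Type w} [Field L] [AddCommGroup V] [Module L V]
  [Fintype J] [DecidableEq J] {𝒟 : Cfg L V J} {u : J → L} {t t' : J → V} {W I : Submodule L V}
  {k : ℕ} {U : Fin k → Submodule L V} {d : Fin k → L} {p : Fin 3 → ℕ}

/-- operators commuting with the residues at `x t + y t'` modulo `I` are scalars on the blocks -/
theorem scal_tm (B : Blk 𝒟 u t t' W I U d p) {x y : L} (hcen : S2.Cen 𝒟 t t' W I x y)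
    {Γ : End L V} (h : CmI 𝒟 (tm t t' x y) W I Γ) :
    ∃ c : Fin k → L, ∀ m, ∀ w ∈ U m, Γ w - c m • w ∈ I :=
  B.scal Γ h.mapW h.mapI h.sa (hcen Γ h.mapW h.mapI h.comm)

section nofin

variable (hG : 𝒟.Good) (hK : KRel 𝒟.arm 𝒟.q 𝒟.Ω (Tt L '' (Ku 𝒟 u : Set (J → V))))
  (B : Blk 𝒟 u t t' W I U d p)

include hG hK B

/-- the mixed operators preserve the blocks -/
theorem op_tm {r : J → V} (hr : r ∈ Ku 𝒟 u) (x y : L) (a : Fin 3) {m : Fin k} {w : V}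
    (hw : w ∈ U m) :
    opr 𝒟.q (Tt L r) (Gm 𝒟.arm 𝒟.Ω a) (Tt L (tm t t' x y)) w ∈ U m := by
  obtain ⟨α, β, rfl⟩ := B.span r hr
  have h1 := opr_tm_left hG hK B hw α β a
  rw [opr_tm hG B hw]
  refine Submodule.smul_mem _ _ ?_
  have h2 : opr 𝒟.q (Tt L (α • t + β • t')) (Gm 𝒟.arm 𝒟.Ω a) (Tt L t) w =
      (α + β * d m) • Res 𝒟 t a w := h1
  rw [h2]
  exact Submodule.smul_mem _ _ (mapU B m a hw)

theorem soc_tm {x y : L} (hu : ∀ m, x + y * d m ≠ 0) {w : V} (hw : w ∈ W)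
    (h : ∀ a, Res 𝒟 (tm t t' x y) a w ∈ I) : w ∈ I := by
  obtain ⟨M, m1, m2, m3, -⟩ := exists_scal B fun m => (x + y * d m) ^ 2
  obtain ⟨M', m1', m2', m3', -⟩ := exists_scal B fun m => ((x + y * d m) ^ 2)⁻¹
  have e1 : ∀ a, ∀ w ∈ W, Res 𝒟 (tm t t' x y) a w - Res 𝒟 t a (M w) ∈ I := by
    intro a
    have : ∀ w ∈ W, (Res 𝒟 (tm t t' x y) a - Res 𝒟 t a * M) w ∈ I := W_ind B fun m w hw => by
      rw [LinearMap.sub_apply, Module.End.mul_apply, Res_tm hG hK B hw]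
      have := I.neg_mem (mapI hG B a (m3 m w hw))
      rw [map_sub, map_smul, neg_sub] at this
      exact this
    exact fun w hw => this w hw
  have e2 : ∀ w ∈ W, M' (M w) - w ∈ I := by
    have : ∀ w ∈ W, (M' * M - 1) w ∈ I := W_ind B fun m w hw => by
      rw [LinearMap.sub_apply, Module.End.mul_apply, Module.End.one_apply]
      have h1 := m2' _ (m3 m w hw)
      have h2 := I.smul_mem ((x + y * d m) ^ 2) (m3' m w hw)
      have h3 := I.add_mem h1 h2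
      rw [map_sub, map_smul, smul_sub, smul_smul, mul_inv_cancel₀ (pow_ne_zero 2 (hu m)),
        one_smul, sub_add_sub_cancel] at h3
      exact h3
    exact fun w hw => this w hw
  have h3 : M w ∈ I := B.soc _ (m1 w hw) fun a => by
    have := I.sub_mem (h a) (e1 a w hw)
    rwa [sub_sub_cancel] at this
  have := I.sub_mem (m2' _ h3) (e2 w hw)
  rwa [sub_sub_cancel] at this

/-- **The bases `x t + y t'` are good.** -/
theorem bse_of_blk {x y : L} (hu : ∀ m, x + y * d m ≠ 0) (hcen : S2.Cen 𝒟 t t' W I x y)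
    (hwd : ∃ N, words (Res 𝒟 (tm t t' x y)) N ≤ W) : Bse 𝒟 u (tm t t' x y) W I where
  hτ := tm_mem B x y
  I_eq := B.I_eq
  sumW := sumW_tm hG hK B hu
  wd := hwd
  op r hr a := W_ind B fun m w hw => U_le B m (op_tm hG hK B hr x y a hw)
  soc w hw h := soc_tm hG hK B hu hw h
  cm Γ Γ' h h' := by
    obtain ⟨c, hc⟩ := scal_tm B hcen h
    obtain ⟨c', hc'⟩ := scal_tm B hcen h'
    have : ∀ w ∈ W, (Γ * Γ' - Γ' * Γ) w ∈ I := W_ind B fun m w hw => by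
      rw [LinearMap.sub_apply, Module.End.mul_apply, Module.End.mul_apply]
      have h1 := I.add_mem (h.mapI _ (hc' m w hw)) (I.smul_mem (c' m) (hc m w hw))
      have h2 := I.add_mem (h'.mapI _ (hc m w hw)) (I.smul_mem (c m) (hc' m w hw))
      rw [map_sub, map_smul, smul_sub, sub_add_sub_cancel] at h1 h2
      have h3 := I.sub_mem h1 h2
      rw [smul_comm (c' m) (c m), sub_sub_sub_cancel_right] at h3
      exact h3
    exact fun w hw => this w hw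

end nofin

variable [FiniteDimensional L V]

/-- the words at `x t + y t'` -/
theorem words_le (B : Blk 𝒟 u t t' W I U d p) (hC : Ctx 𝒟 u) (hM : MaxCoreU 𝒟 u t) {x y : L}
    (hu : ∀ m, x + y * d m ≠ 0) : ∃ N, words (Res 𝒟 (tm t t' x y)) N ≤ W := by
  obtain ⟨C, hW, -⟩ := S2.core_tm B hC hM hu
  exact ⟨C.N, by rw [← hW, C.hN]⟩

theorem bse_tm (hC : Ctx 𝒟 u) (hM : MaxCoreU 𝒟 u t) (B : Blk 𝒟 u t t' W I U d p) {x y : L}
    (hu : ∀ m, x + y * d m ≠ 0) (hcen : S2.Cen 𝒟 t t' W I x y) :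
    Bse 𝒟 u (tm t t' x y) W I :=
  bse_of_blk hC.good hC.krel B hu hcen (words_le B hC hM hu)

/-- **The two-section flow at `x t + y t'`**, in the form of helper534. -/
theorem exists_FB (hC : Ctx 𝒟 u) (hM : MaxCoreU 𝒟 u t) (B : Blk 𝒟 u t t' W I U d p) {x y : L}
    (hu : ∀ m, x + y * d m ≠ 0) (hcen : S2.Cen 𝒟 t t' W I x y) {i j : Fin k} (hij : i ≠ j)
    {T Td ξ ξ' ξd ξd' : Fin 3 → End L V} (hT : ∀ a, T a ∈ Ten 𝒟.q (U i) (U j))
    (hTd : ∀ a, Td a ∈ Ten 𝒟.q (U j) (U i)) (hadj : ∀ a, IsAdj 𝒟.q (T a) (Td a))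
    (hsum : ∑ a, (Res 𝒟 (tm t t' x y) a * T a - T a * Res 𝒟 (tm t t' x y) a) = 0)
    (hcomm : ∀ a, ∀ w ∈ U j,
      Res 𝒟 (tm t t' x y) a (T a w) - T a (Res 𝒟 (tm t t' x y) a w) ∈ I)
    (hξ : ∀ a, ∀ w ∈ U i, ξ a w ∈ U i) (hξ' : ∀ a, ∀ w ∈ U j, ξ' a w ∈ U j)
    (hs : ∀ w ∈ U i, ∑ a, Res 𝒟 (tm t t' x y) a (ξ a w) = w)
    (hs' : ∀ w ∈ U j, ∑ a, Res 𝒟 (tm t t' x y) a (ξ' a w) = w)
    (hξd : ∀ a, IsAdj 𝒟.q (ξ a) (ξd a)) (hξd' : ∀ a, IsAdj 𝒟.q (ξ' a) (ξd' a)) :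
    ∃ n R E, H534.FB 𝒟 u W I t (tm t t' x y) T Td ξ ξ' ξd ξd' n R ∧
      FlowG 𝒟 W I (tm t t' x y) n (fun a => T a - Td a) E R := by
  have hG := hC.good
  have hK := hC.krel
  obtain ⟨σ, hR⟩ := hC.realL
  have b := bse_tm hC hM B hu hcen
  have hTD : H952.Td 𝒟 (tm t t' x y) (U i) (U j) T Td := ⟨hadj, fun a => (hT a).1,
    fun a => (hTd a).1, by
      have e : ∑ a, (T a * Res 𝒟 (tm t t' x y) a - Res 𝒟 (tm t t' x y) a * T a) =
          -∑ a, (Res 𝒟 (tm t t' x y) a * T a - T a * Res 𝒟 (tm t t' x y) a) := by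
        rw [← Finset.sum_neg_distrib]
        exact Finset.sum_congr rfl fun a _ => by rw [neg_sub]
      rw [e, hsum, neg_zero]⟩
  have hBi : Bs 𝒟 (tm t t' x y) (U i) ξ := ⟨fun a w hw => mapU_tm hG hK B x y i a hw, hξ, hs⟩
  have hBj : Bs 𝒟 (tm t t' x y) (U j) ξ' :=
    ⟨fun a w hw => mapU_tm hG hK B x y j a hw, hξ', hs'⟩
  have hk0 : ∀ a m, m ≠ j → ∀ w ∈ U m, T a w = 0 := fun a m hm w hw =>
    (hT a).2 w fun v hv => B.ortho m j hm w hw v hv
  have hTS : ∀ a, ∀ w ∈ W, T a (Res 𝒟 (tm t t' x y) a w) -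
      Res 𝒟 (tm t t' x y) a (T a w) ∈ I := by
    intro a
    have : ∀ w ∈ W, (T a * Res 𝒟 (tm t t' x y) a - Res 𝒟 (tm t t' x y) a * T a) w ∈ I :=
      W_ind B fun m w hw => by
        rw [LinearMap.sub_apply, Module.End.mul_apply, Module.End.mul_apply]
        by_cases hm : m = j
        · subst hm
          have := I.neg_mem (hcomm a w hw)
          rwa [neg_sub] at this
        · rw [hk0 a m hm w hw, hk0 a m hm _ (mapU_tm hG hK B x y m a hw), map_zero, sub_zero]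
          exact I.zero_mem
    exact fun w hw => this w hw
  obtain ⟨n, R, E, hF, hFG, hfam⟩ := exists_flow2_full hG hR hK b (U_le B i) (U_le B j) hBi hBj
    hTD hTS
  have eξ : ξd = fun a => adj hG.form (ξ a) := by
    funext a
    refine (adj_uniq hG.form fun v w => ?_).symm
    rw [hG.form.symm, ← hξd a w v, hG.form.symm]
  have eξ' : ξd' = fun a => adj hG.form (ξ' a) := by
    funext a
    refine (adj_uniq hG.form fun v w => ?_).symm
    rw [hG.form.symm, ← hξd' a w v, hG.form.symm]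
  refine ⟨n, R, E, ⟨hF.mem, hF.flag, hF.tau, hF.om, fun r hr ⟨Γ0, hΓ0⟩ => ?_⟩, hFG⟩
  obtain ⟨c, hc⟩ := relG_scal B hΓ0
  obtain ⟨Γ, hΓ, -⟩ := relG_to_tm' hG hK B hu hΓ0 hc
  obtain ⟨h1, h2⟩ := hfam r hr Γ hΓ
  obtain ⟨c1, hc1⟩ := scal_tm B hcen (CmI.of h2)
  obtain ⟨Γ1, hΓ1, -⟩ := relG_of_tm hG hK B hu h2 fun m w hw =>
    ⟨c1 m • w, (U m).smul_mem _ hw, hc1 m w hw⟩
  have hfd := fd_of_relG (fun a w hw => b.mapS a hw) b.IW hG hΓ
  refine ⟨_, h1, ⟨Γ1, hΓ1⟩, fun l => ?_⟩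
  have g1 := rr_BB (n := n) (ξ := ξ) (ξ' := ξ') hG (U_le B i) (U_le B j) hTD hfd l
  have g2 := om_rr_BB hG (U_le B i) (U_le B j) hBi hBj hTD hfd hF l
  rw [eξ, eξ']
  exact ⟨g1, g2⟩

end Vale.Agent.P182.H952
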