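import Vale.Agent.P182.H952.Flow
import Vale.Agent.P182.H578.Der
import Vale.Agent.P182.H588.RealL

/-!
# The flows of the null case: the connection

`exists_flow`: a connection `∇` which realises `Y` on the flags and `η` on `Ω`.
`Flow.fam`: the image `r'' = ∇ r - Y r - B τ` of a family `r`.
-/

namespace Vale.Agent.P182.H952

open Module Matrix Vale.Agent.P182.H533 Vale.Agent.P182.B1 Vale.Agent.P182.H922
  Vale.Agent.P182.H578 Vale.Agent.P182.H588 Vale.Agent.P182.H338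

section flow

variable {L V J : Type*} [Field L] [AddCommGroup V] [Module L V]
  [Fintype J] [DecidableEq J]

variable {𝒟 : Cfg L V J}

/-- a flow: a connection realising `Y` and `η`, and the variation `R` of `τ` -/
structure Flow (𝒟 : Cfg L V J) (u : J → L) (τ : J → V) (Y : Fin 3 → End L V)
    (η : Matrix J J L) (n : H533.Conn 𝒟.q) (R : J → V) : Prop where
  mem : R ∈ Ku 𝒟 u
  flag : ∀ s i, ∀ v ∈ 𝒟.F s i, n.δ v - Y s v ∈ 𝒟.F s i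
  dO : ∀ l k, n.d (𝒟.Ω l k) = η l k
  tau : ∀ l, n.δ (τ l) = Y (𝒟.arm l) (τ l) + R l
  om : ∀ l, n.δ (𝒟.om τ l) = Y (𝒟.arm l) (𝒟.om τ l) + 𝒟.om R l

/-- the realised variation of a family of the kernel -/
theorem conn_Kl {u σ : J → L} (hR : RealU 𝒟 u σ) {n : H533.Conn 𝒟.q} {X : Fin 3 → End L V}
    (hX : ∀ s, IsSk 𝒟.q (X s))
    (hn : ∀ s i, ∀ v ∈ 𝒟.F s i, n.δ v - X s v ∈ 𝒟.F s i) {t : J → V} (ht : t ∈ Ku 𝒟 u)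
    (hσ : ∀ l, ∑ k, n.d (𝒟.Ω l k) * σ k = 0)
    (hη : ∀ l, ∑ k, n.d (𝒟.Ω l k) • t k = X (𝒟.arm l) (𝒟.om t l) -
      ∑ k, 𝒟.Ω l k • X (𝒟.arm k) (t k)) :
    ∃ R ∈ Ku 𝒟 u, (∀ l, n.δ (t l) = X (𝒟.arm l) (t l) + R l) ∧
      ∀ l, n.δ (𝒟.om t l) = X (𝒟.arm l) (𝒟.om t l) + 𝒟.om R l := by
  obtain ⟨R, h1, h2, h3⟩ := conn_K hX hn ht.1 hη
  refine ⟨R, ⟨h1, ?_⟩, h2, h3⟩
  rw [SetLike.mem_coe, mem_Uu, ← hR.stab n X t hσ (mem_Uu.1 ht.2) hη]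
  refine Finset.sum_congr rfl fun l _ => ?_
  rw [h2, add_sub_cancel_left]

variable [FiniteDimensional L V] {u σ : J → L} {τ : J → V} {W : Submodule L V}
  {ξ Y : Fin 3 → End L V} {r : J → V} {D' : End L V} {Q : Fin 3 → End L V}
  {n : H533.Conn 𝒟.q} {R : J → V}

/-- **The flow.** -/
theorem exists_flow (hG : 𝒟.Good) (hR : RealU 𝒟 u σ) (hτ : τ ∈ Ku 𝒟 u) (hB : Bs 𝒟 τ W ξ)
    (hY : Yd 𝒟 τ W Y) : ∃ n R, Flow 𝒟 u τ Y (Et hG τ ξ Y) n R := by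
  have hσ0 := Et_sigma hG ξ Y hR.gm hτ.2
  obtain ⟨n, hn1, hn2⟩ := hR.real Y hY.sk (Et hG τ ξ Y) (Et_skew hG ξ hY) hσ0
  obtain ⟨R, h1, h2, h3⟩ := conn_Kl hR hY.sk hn1 hτ (fun l => by
    have := congrFun hσ0 l
    rw [Matrix.mulVec, dotProduct] at this
    simpa only [hn2, Pi.zero_apply] using this) (fun l => by
    simp only [hn2]; exact Et_self hG hB hY l)
  exact ⟨n, R, h1, hn1, hn2, h2, h3⟩

/-- the sum `∑ η_{lk} σ_k` -/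
theorem Flow.sigma (hG : 𝒟.Good) (hR : RealU 𝒟 u σ) (hτ : τ ∈ Ku 𝒟 u)
    (hF : Flow 𝒟 u τ Y (Et hG τ ξ Y) n R) (l : J) : ∑ k, n.d (𝒟.Ω l k) * σ k = 0 := by
  have := congrFun (Et_sigma hG ξ Y hR.gm hτ.2) l
  rw [Matrix.mulVec, dotProduct] at this
  simpa only [hF.dO, Pi.zero_apply] using this

omit [DecidableEq J] [FiniteDimensional L V] in
/-- the family `r'' = ∇ r - Y r - B τ` -/
def rr (𝒟 : Cfg L V J) (n : H533.Conn 𝒟.q) (Y B : Fin 3 → End L V) (τ r : J → V) : J → V :=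
  fun l => n.δ (r l) - Y (𝒟.arm l) (r l) - B (𝒟.arm l) (τ l)

omit [FiniteDimensional L V] in
theorem rr_apply (n : H533.Conn 𝒟.q) (Y B : Fin 3 → End L V) (τ r : J → V) (l : J) :
    rr 𝒟 n Y B τ r l = n.δ (r l) - Y (𝒟.arm l) (r l) - B (𝒟.arm l) (τ l) := rfl

/-- the dual vectors of `r''` -/
theorem Flow.om_rr (hG : 𝒟.Good) (hB : Bs 𝒟 τ W ξ) (hY : Yd 𝒟 τ W Y) (hr : Fd 𝒟 τ W r D' Q)
    (hF : Flow 𝒟 u τ Y (Et hG τ ξ Y) n R) (l : J) :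
    𝒟.om (rr 𝒟 n Y (Bo hG τ ξ Y D' Q) τ r) l = n.δ (𝒟.om r l) - Y (𝒟.arm l) (𝒟.om r l) -
      Bo hG τ ξ Y D' Q (𝒟.arm l) (𝒟.om τ l) := by
  have h2 : 𝒟.om (rr 𝒟 n Y (Bo hG τ ξ Y D' Q) τ r) l =
      𝒟.om (fun l => n.δ (r l)) l - ∑ k, 𝒟.Ω l k • Y (𝒟.arm k) (r k) -
        ∑ k, 𝒟.Ω l k • Bo hG τ ξ Y D' Q (𝒟.arm k) (τ k) := by
    simp only [Cfg.om, rr_apply, smul_sub, Finset.sum_sub_distrib]
  have h3 := Et_disc hG hB hY hr l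
  rw [h2, conn_om]
  simp only [hF.dO]
  rw [h3]
  abel

/-- `r''` satisfies the linear condition -/
theorem Flow.rr_mem (hG : 𝒟.Good) (hR : RealL 𝒟 u σ) (hτ : τ ∈ Ku 𝒟 u)
    (hB : Bs 𝒟 τ W ξ) (hY : Yd 𝒟 τ W Y) (hr : Fd 𝒟 τ W r D' Q) (hru : r ∈ Uu V u)
    (hF : Flow 𝒟 u τ Y (Et hG τ ξ Y) n R) :
    rr 𝒟 n Y (Bo hG τ ξ Y D' Q) τ r ∈ Uu V u := by
  rw [mem_Uu]
  rcases hR.loc with h0 | ⟨c0, ω, h1, h2⟩
  · rw [h0]; simp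
  have hω := h2 n (hF.sigma hG hR.toRealU hτ)
  have e1 := mem_Uu.1 hru
  have e2 := mem_Uu.1 hτ.2
  rw [h1, sub_eq_zero] at e1 e2
  rw [h1, hF.om_rr hG hB hY hr, rr_apply, e1, e2, n.smul, hω, map_smul, map_smul]
  module

/-- the residues along the flow -/
theorem Flow.nRes (hG : 𝒟.Good) (hY : ∀ a, IsSk 𝒟.q (Y a)) {η : Matrix J J L}
    (hF : Flow 𝒟 u τ Y η n R) (a : Fin 3) (v : V) :
    n.δ (Res 𝒟 τ a v) = Res 𝒟 τ a (n.δ v) + (Y a (Res 𝒟 τ a v) - Res 𝒟 τ a (Y a v)) +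
      (opr 𝒟.q (Tt L τ) (Gm 𝒟.arm 𝒟.Ω a) (Tt L R) v +
        opr 𝒟.q (Tt L R) (Gm 𝒟.arm 𝒟.Ω a) (Tt L τ) v) :=
  conn_Res hG n (hY a) (fun l hl => by rw [← hl]; exact hF.tau l)
    (fun l hl => by rw [← hl]; exact hF.om l) v

/-- the flow preserves `W` -/
theorem Flow.mapW (hG : 𝒟.Good) (hB : Bs 𝒟 τ W ξ) (hY : Yd 𝒟 τ W Y) {η : Matrix J J L}
    (hF : Flow 𝒟 u τ Y η n R) {N : ℕ} (hN : H533.words (Res 𝒟 τ) N ≤ W)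
    (hop : ∀ r r' : J → V, r ∈ Ku 𝒟 u → r' ∈ Ku 𝒟 u → ∀ a, ∀ w ∈ W,
      opr 𝒟.q (Tt L r) (Gm 𝒟.arm 𝒟.Ω a) (Tt L r') w ∈ W) (hτ : τ ∈ Ku 𝒟 u) :
    ∀ w ∈ W, n.δ w ∈ W := by
  refine der_W (S := Res 𝒟 τ) ?_ hN hB.mapS n fun a w hw => ?_
  · intro w hw
    rw [← hB.sec w hw]
    exact sum_mem fun a _ => Submodule.mem_iSup_of_mem a
      (Submodule.mem_map_of_mem (hB.mapξ a w hw))
  · rw [hF.nRes hG hY.sk, add_assoc, add_sub_cancel_left]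
    exact add_mem (sub_mem (hY.mem _ _) (hB.mapS _ _ (hY.mem _ _)))
      (add_mem (hop _ _ hτ hF.mem _ _ hw) (hop _ _ hF.mem hτ _ _ hw))

end flow

end Vale.Agent.P182.H952
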