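import Vale.Agent.P182.H952.FlowT
import Vale.Agent.P182.H983.GDef
import Vale.Agent.P182.H58.Glue7

/-!
# The flows of the null case: the main theorem

`Flow2` is the statement (P1) of helper534; `exists_flow2` is its existence.
-/

namespace Vale.Agent.P182.H952

open Module Matrix Vale.Agent.P182.H533 Vale.Agent.P182.B1 Vale.Agent.P182.H922
  Vale.Agent.P182.H578 Vale.Agent.P182.H588 Vale.Agent.P182.H338 Vale.Agent.P182.H181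
  Vale.Agent.P182.H983

section main

variable {L V J : Type*} [Field L] [AddCommGroup V] [Module L V]
  [Fintype J] [DecidableEq J] {𝒟 : Cfg L V J}

/-- the discrepancy of a family `r` is `[B.τ]` -/
structure Dsc (𝒟 : Cfg L V J) (τ : J → V) (Y : Fin 3 → End L V) (η : Matrix J J L) (r : J → V)
    (B : Fin 3 → End L V) : Prop where
  eq : ∀ l, ∑ k, η l k • r k =
    (Y (𝒟.arm l) (𝒟.om r l) - ∑ k, 𝒟.Ω l k • Y (𝒟.arm k) (r k)) +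
      (B (𝒟.arm l) (𝒟.om τ l) - ∑ k, 𝒟.Ω l k • B (𝒟.arm k) (τ k))

variable {u σ : J → L} {τ : J → V} {U U' W I : Submodule L V} {Y : Fin 3 → End L V}
  {η : Matrix J J L} {r : J → V} {B : Fin 3 → End L V} {n : H533.Conn 𝒟.q} {R : J → V}

/-- existence of a flow from a discrepancy identity for `τ` -/
theorem exists_flow_gen (hR : RealU 𝒟 u σ) (hτ : τ ∈ Ku 𝒟 u) (hY : ∀ a, IsSk 𝒟.q (Y a))
    (hη : ηᵀ = -η) (hσ : η *ᵥ σ = 0) (hd : Dsc 𝒟 τ Y η τ 0) :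
    ∃ n R, Flow 𝒟 u τ Y η n R := by
  obtain ⟨n, hn1, hn2⟩ := hR.real Y hY η hη hσ
  obtain ⟨R, h1, h2, h3⟩ := conn_Kl hR hY hn1 hτ (fun l => by
    have := congrFun hσ l
    rw [Matrix.mulVec, dotProduct] at this
    simpa only [hn2, Pi.zero_apply] using this) (fun l => by
    simp only [hn2]
    rw [hd.eq l]
    simp only [Pi.zero_apply, LinearMap.zero_apply, smul_zero, Finset.sum_const_zero, sub_zero,
      add_zero])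
  exact ⟨n, R, h1, hn1, hn2, h2, h3⟩

/-- the dual vectors of `r''` -/
theorem Dsc.om_rr (hd : Dsc 𝒟 τ Y η r B) (hF : Flow 𝒟 u τ Y η n R) (l : J) :
    𝒟.om (rr 𝒟 n Y B τ r) l = n.δ (𝒟.om r l) - Y (𝒟.arm l) (𝒟.om r l) -
      B (𝒟.arm l) (𝒟.om τ l) := by
  have h2 : 𝒟.om (rr 𝒟 n Y B τ r) l =
      𝒟.om (fun l => n.δ (r l)) l - ∑ k, 𝒟.Ω l k • Y (𝒟.arm k) (r k) -
        ∑ k, 𝒟.Ω l k • B (𝒟.arm k) (τ k) := by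
    simp only [Cfg.om, rr_apply, smul_sub, Finset.sum_sub_distrib]
  rw [h2, conn_om]
  simp only [hF.dO]
  rw [hd.eq]
  abel

/-- `r''` satisfies the linear condition -/
theorem Dsc.rr_mem (hd : Dsc 𝒟 τ Y η r B) (hR : RealL 𝒟 u σ) (hσ : η *ᵥ σ = 0)
    (hτ : τ ∈ Uu V u) (hru : r ∈ Uu V u) (hF : Flow 𝒟 u τ Y η n R) :
    rr 𝒟 n Y B τ r ∈ Uu V u := by
  rw [mem_Uu]
  rcases hR.loc with h0 | ⟨c0, ω, h1, h2⟩
  · rw [h0]; simp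
  have hω := h2 n fun l => by
    have := congrFun hσ l
    rw [Matrix.mulVec, dotProduct] at this
    simpa only [hF.dO, Pi.zero_apply] using this
  have e1 := mem_Uu.1 hru
  have e2 := mem_Uu.1 hτ
  rw [h1, sub_eq_zero] at e1 e2
  rw [h1, hd.om_rr hF, rr_apply, e1, e2, n.smul, hω, map_smul, map_smul]
  module

/-- the membership in the flags -/
theorem Dsc.inN (hd : Dsc 𝒟 τ Y η r B) (hF : Flow 𝒟 u τ Y η n R) (hY : ∀ a, IsSk 𝒟.q (Y a))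
    {y : (J → V) × (J → V)} (h : InN 𝒟 y r) :
    InN 𝒟 (fun l => n.δ (y.1 l) - Y (𝒟.arm l) (y.1 l) - B (𝒟.arm l) (τ l),
      fun l => n.δ (y.2 l) - Y (𝒟.arm l) (y.2 l) - B (𝒟.arm l) (𝒟.om τ l))
      (rr 𝒟 n Y B τ r) := by
  intro l
  obtain ⟨h1, h2⟩ := h l
  have hC : 𝒟.C l = 𝒟.F (𝒟.arm l) (𝒟.c l) := by rw [Cfg.C]
  rw [hC] at h1 h2 ⊢
  have e1 := hF.flag _ _ _ h1
  have e2 := conn_perp n (hY (𝒟.arm l)) (hF.flag _ _) _ h2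
  constructor
  · convert e1 using 1
    simp only [rr_apply, map_sub]
    abel
  · convert e2 using 1
    simp only [hd.om_rr hF, map_sub]
    abel

variable [FiniteDimensional L V] {ξ ξ' T T' : Fin 3 → End L V} {D' : End L V}
  {Q : Fin 3 → End L V}

/-- **The discrepancy identity, two sections.** -/
theorem dsc_Et2 (hG : 𝒟.Good) (hU : U ≤ W) (hU' : U' ≤ W) (hB : Bs 𝒟 τ U ξ)
    (hB' : Bs 𝒟 τ U' ξ') (hT : Td 𝒟 τ U U' T T') (hr : Fd 𝒟 τ W r D' Q) :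
    Dsc 𝒟 τ (yy T T') (Et2 hG τ ξ ξ' T T') r (Bo2 hG τ ξ ξ' T T' D' Q) where
  eq l := by
    have hY := yd_yy hG hT hU hU'
    apply hG.form.ext
    intro v
    have e4 : 𝒟.q (∑ k, Et2 hG τ ξ ξ' T T' l k • r k) v =
        (Et2 hG τ ξ ξ' T T' *ᵥ ad 𝒟.q (Tt L r) v) l := by
      rw [Matrix.mulVec, dotProduct, map_sum, LinearMap.sum_apply]
      refine Finset.sum_congr rfl fun k _ => ?_
      rw [ad_apply, Tt_single, map_smul, LinearMap.smul_apply, smul_eq_mul]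
    have h1 : ∀ a u v, 𝒟.q (yy T T' a u) v = 𝒟.q u ((-yy T T' a) v) := fun a u v => by
      rw [hY.sk, LinearMap.neg_apply, map_neg]
    rw [e4, Et2_mulVec, Ee2_ad hG hU hU' hB hB' hT hr, map_add, LinearMap.add_apply,
      q_brak hG (X := yy T T') (X' := fun a => -yy T T' a) h1,
      q_brak hG (X := Bo2 hG τ ξ ξ' T T' D' Q) (X' := Bad2 hG τ ξ ξ' T T' D' Q)
        (fun a u v => q_Bo2 hG a u v), ← Pi.add_apply, ← Finset.sum_add_distrib]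
    refine congrFun (Finset.sum_congr rfl fun a _ => ?_) l
    rw [LinearMap.neg_apply, map_neg, Matrix.mulVec_neg, Matrix.mulVec_sub]
    abel

/-- the one-section version -/
theorem dsc_Et (hG : 𝒟.Good) (hB : Bs 𝒟 τ W ξ) (hY : Yd 𝒟 τ W Y) (hr : Fd 𝒟 τ W r D' Q) :
    Dsc 𝒟 τ Y (Et hG τ ξ Y) r (Bo hG τ ξ Y D' Q) := ⟨Et_disc hG hB hY hr⟩

omit [FiniteDimensional L V] in
/-- `T_a th'^* = T_a` -/
theorem T_TT_self (hG : 𝒟.Good) [FiniteDimensional L V] (hB' : Bs 𝒟 τ U' ξ') {X X' : End L V}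
    (hX : ∀ u v, 𝒟.q (X u) v = 𝒟.q u (X' v)) (hX' : ∀ v, X' v ∈ U') :
    X * adj hG.form (TT ξ' (Res 𝒟 τ)) = X := by
  ext v
  apply hG.form.ext
  intro u
  rw [Module.End.mul_apply, hX, adj_left, TT_apply, hB'.sec _ (hX' u), ← hX]

theorem Zo_self (hG : 𝒟.Good) (hB' : Bs 𝒟 τ U' ξ') (hT : Td 𝒟 τ U U' T T') :
    Zo hG τ ξ' T (Res 𝒟 τ) = 0 := by
  have hSX : ∀ u v, 𝒟.q ((∑ a, T a * Res 𝒟 τ a : End L V) u) v =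
      𝒟.q u ((∑ a, Res 𝒟 τ a * T' a : End L V) v) := fun u v => by
    rw [LinearMap.sum_apply, LinearMap.sum_apply, map_sum, map_sum, LinearMap.sum_apply]
    refine Finset.sum_congr rfl fun a _ => ?_
    rw [Module.End.mul_apply, Module.End.mul_apply, hT.adj]
    exact SA_Res hG τ a _ _
  have hS : ∀ v, (∑ a, Res 𝒟 τ a * T' a : End L V) v ∈ U' := fun v => by
    rw [LinearMap.sum_apply]
    exact sum_mem fun a _ => hB'.mapS a _ (hT.mem' a _)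
  have h3 := T_TT_self hG hB' hSX hS
  rw [← sub_eq_zero, Finset.sum_mul, ← Finset.sum_sub_distrib] at h3
  rw [Zo, ← neg_eq_zero, ← Finset.sum_neg_distrib, ← h3]
  refine Finset.sum_congr rfl fun c _ => ?_
  rw [adj_SA hG.form (SA_Res hG τ c)]
  noncomm_ring

theorem Bad2_self (hG : 𝒟.Good) (hB : Bs 𝒟 τ U ξ) (hB' : Bs 𝒟 τ U' ξ')
    (hT : Td 𝒟 τ U U' T T') (a : Fin 3) : Bad2 hG τ ξ ξ' T T' 1 (Res 𝒟 τ) a = 0 := by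
  rw [Bad2, Zo_self hG hB' hT, Zo_self hG hB (td_flip hG hT),
    T_TT_self hG hB' (hT.adj a) (hT.mem' a),
    T_TT_self hG hB ((td_flip hG hT).adj a) (hT.mem a), yy]
  noncomm_ring

theorem Bo2_self (hG : 𝒟.Good) (hB : Bs 𝒟 τ U ξ) (hB' : Bs 𝒟 τ U' ξ')
    (hT : Td 𝒟 τ U U' T T') : Bo2 hG τ ξ ξ' T T' 1 (Res 𝒟 τ) = 0 := by
  funext a
  rw [Bo2, Bad2_self hG hB hB' hT, adj_zero, Pi.zero_apply]

/-- **The two-section flow exists.** -/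
theorem exists_flowT (hG : 𝒟.Good) (hR : RealU 𝒟 u σ) (hτ : τ ∈ Ku 𝒟 u) (hU : U ≤ W)
    (hU' : U' ≤ W) (hWS : ∀ a, ∀ w ∈ W, Res 𝒟 τ a w ∈ W) (hB : Bs 𝒟 τ U ξ)
    (hB' : Bs 𝒟 τ U' ξ') (hT : Td 𝒟 τ U U' T T') :
    ∃ n R, Flow 𝒟 u τ (yy T T') (Et2 hG τ ξ ξ' T T') n R := by
  have hself : Fd 𝒟 τ W τ 1 (Res 𝒟 τ) := ⟨fun _ _ _ => rfl, fun _ h => h, fun _ _ _ => rfl, hWS⟩
  have hd := dsc_Et2 hG hU hU' hB hB' hT hself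
  rw [Bo2_self hG hB hB' hT] at hd
  exact exists_flow_gen hR hτ (yd_yy hG hT hU hU').sk (Et2_skew hG ξ ξ' hT)
    (Et2_sigma hG ξ ξ' T T' hR.gm hτ.2) hd

/-- the operator of the correction without `D'` -/
noncomputable def BB (hG : 𝒟.Good) (τ : J → V) (ξ ξ' T T' Q : Fin 3 → End L V) (a : Fin 3) :
    End L V :=
  (∑ b, Q b * ξ b) * T a - (∑ b, Q b * ξ' b) * T' a +
    ∑ c, ((Q c - (∑ b, Q b * ξ b) * Res 𝒟 τ c) * T c * adj hG.form (ξ' a) -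
      (Q c - (∑ b, Q b * ξ' b) * Res 𝒟 τ c) * T' c * adj hG.form (ξ a))

theorem Bo2_BB (hG : 𝒟.Good) (hT : Td 𝒟 τ U U' T T') (a : Fin 3) :
    Bo2 hG τ ξ ξ' T T' D' Q a = BB hG τ ξ ξ' T T' Q a - yy T T' a * adj hG.form D' := by
  rw [Bo2_eq hG hT, BB, Finset.sum_sub_distrib, ← Finset.sum_mul, ← Finset.sum_mul]
  show _ = TT ξ Q * T a - TT ξ' Q * T' a + ((∑ c, (Q c - TT ξ Q * Res 𝒟 τ c) * T c) *
    adj hG.form (ξ' a) - (∑ c, (Q c - TT ξ' Q * Res 𝒟 τ c) * T' c) * adj hG.form (ξ a)) - _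
  abel

/-- `Y_a D'^* τ = Y_a r` -/
theorem Y_adj (hG : 𝒟.Good) {X : End L V} (hX : IsSk 𝒟.q X) (hXW : ∀ v, X v ∈ W) {x y : V}
    (h : ∀ w ∈ W, 𝒟.q y w = 𝒟.q x (D' w)) : X (adj hG.form D' x) = X y := by
  apply hG.form.ext
  intro v
  rw [hX, hX, adj_left, h _ (hXW v)]

theorem fd_om (hr : Fd 𝒟 τ W r D' Q) {w : V} (hw : w ∈ W) (l : J) :
    𝒟.q (𝒟.om r l) w = 𝒟.q (𝒟.om τ l) (D' w) := by
  simp only [Cfg.om, map_sum, map_smul, LinearMap.sum_apply, LinearMap.smul_apply]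
  exact Finset.sum_congr rfl fun k _ => by rw [hr.adj _ hw]

theorem rr_BB (hG : 𝒟.Good) (hU : U ≤ W) (hU' : U' ≤ W) (hT : Td 𝒟 τ U U' T T')
    (hr : Fd 𝒟 τ W r D' Q) (l : J) :
    n.δ (r l) = rr 𝒟 n (yy T T') (Bo2 hG τ ξ ξ' T T' D' Q) τ r l +
      BB hG τ ξ ξ' T T' Q (𝒟.arm l) (τ l) := by
  have hY := yd_yy hG hT hU hU'
  have h1 : yy T T' (𝒟.arm l) (adj hG.form D' (τ l)) = yy T T' (𝒟.arm l) (r l) :=
    Y_adj hG (hY.sk _) (hY.mem _) fun w hw => hr.adj w hw l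
  rw [rr_apply, Bo2_BB hG hT, LinearMap.sub_apply, Module.End.mul_apply, h1]
  abel

theorem om_rr_BB (hG : 𝒟.Good) (hU : U ≤ W) (hU' : U' ≤ W) (hB : Bs 𝒟 τ U ξ)
    (hB' : Bs 𝒟 τ U' ξ') (hT : Td 𝒟 τ U U' T T') (hr : Fd 𝒟 τ W r D' Q)
    (hF : Flow 𝒟 u τ (yy T T') (Et2 hG τ ξ ξ' T T') n R) (l : J) :
    n.δ (𝒟.om r l) = 𝒟.om (rr 𝒟 n (yy T T') (Bo2 hG τ ξ ξ' T T' D' Q) τ r) l +
      BB hG τ ξ ξ' T T' Q (𝒟.arm l) (𝒟.om τ l) := by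
  have hY := yd_yy hG hT hU hU'
  have h1 : yy T T' (𝒟.arm l) (adj hG.form D' (𝒟.om τ l)) = yy T T' (𝒟.arm l) (𝒟.om r l) :=
    Y_adj hG (hY.sk _) (hY.mem _) fun w hw => fd_om hr hw l
  rw [(dsc_Et2 hG hU hU' hB hB' hT hr).om_rr hF, Bo2_BB hG hT, LinearMap.sub_apply,
    Module.End.mul_apply, h1]
  abel


/-! ### The correction on `W` -/

theorem T_TT_W (hG : 𝒟.Good) (hU' : U' ≤ W) (hB' : Bs 𝒟 τ U' ξ') (hr : Fd 𝒟 τ W r D' Q)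
    {X X' : End L V} (hX : ∀ u v, 𝒟.q (X u) v = 𝒟.q u (X' v)) (hX' : ∀ v, X' v ∈ U') {w : V}
    (hw : w ∈ W) : X (adj hG.form (TT ξ' Q) w) = X (D' w) := by
  apply hG.form.ext
  intro v
  rw [hX, hX, adj_left, TT_apply, map_sum]
  conv_rhs => rw [← hB'.sec _ (hX' v), map_sum]
  exact Finset.sum_congr rfl fun b _ => fd_compat hG hr b hw (hU' (hB'.mapξ b _ (hX' v)))

theorem T_Q_W (hG : 𝒟.Good) (hU' : U' ≤ W) (hB' : Bs 𝒟 τ U' ξ') (hr : Fd 𝒟 τ W r D' Q)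
    {X X' : End L V} (hX : ∀ u v, 𝒟.q (X u) v = 𝒟.q u (X' v)) (hX' : ∀ v, X' v ∈ U')
    (c : Fin 3) {w : V} (hw : w ∈ W) :
    X ((adj hG.form (Q c) - Res 𝒟 τ c * adj hG.form (TT ξ' Q)) w) = 0 := by
  apply hG.form.nondeg
  intro v
  have hz : Res 𝒟 τ c (X' v) ∈ U' := hB'.mapS _ _ (hX' v)
  have hS : 𝒟.q (Res 𝒟 τ c (adj hG.form (TT ξ' Q) w)) (X' v) =
      𝒟.q w (TT ξ' Q (Res 𝒟 τ c (X' v))) := by
    rw [SA_Res hG, adj_left]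
  have h1 : 𝒟.q w (TT ξ' Q (Res 𝒟 τ c (X' v))) = 𝒟.q (D' w) (Res 𝒟 τ c (X' v)) := by
    rw [TT_apply, map_sum]
    conv_rhs => rw [← hB'.sec _ hz, map_sum]
    exact Finset.sum_congr rfl fun b _ => fd_compat hG hr b hw (hU' (hB'.mapξ b _ hz))
  rw [hX, LinearMap.sub_apply, Module.End.mul_apply, map_sub, LinearMap.sub_apply, adj_left, hS,
    h1, fd_compat hG hr c hw (hU' (hX' v)), sub_self]

theorem Zo_W (hG : 𝒟.Good) (hU' : U' ≤ W) (hB' : Bs 𝒟 τ U' ξ') (hT : Td 𝒟 τ U U' T T')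
    (hr : Fd 𝒟 τ W r D' Q) {w : V} (hw : w ∈ W) : Zo hG τ ξ' T Q w = 0 := by
  rw [Zo, LinearMap.sum_apply]
  exact Finset.sum_eq_zero fun c _ => T_Q_W hG hU' hB' hr (hT.adj c) (hT.mem' c) c hw

/-- the adjoint of the correction on `W` -/
theorem Bad2_W (hG : 𝒟.Good) (hU : U ≤ W) (hU' : U' ≤ W) (hB : Bs 𝒟 τ U ξ)
    (hB' : Bs 𝒟 τ U' ξ') (hT : Td 𝒟 τ U U' T T') (hr : Fd 𝒟 τ W r D' Q) (a : Fin 3) {w : V}
    (hw : w ∈ W) :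
    Bad2 hG τ ξ ξ' T T' D' Q a w = D' (yy T T' a w) - yy T T' a (D' w) := by
  rw [Bad2, LinearMap.add_apply, LinearMap.sub_apply, LinearMap.add_apply, LinearMap.add_apply,
    Module.End.mul_apply, Module.End.mul_apply, Module.End.mul_apply, Module.End.mul_apply,
    Module.End.mul_apply, Zo_W hG hU' hB' hT hr hw, Zo_W hG hU hB (td_flip hG hT) hr hw,
    T_TT_W hG hU' hB' hr (hT.adj a) (hT.mem' a) hw,
    T_TT_W hG hU hB hr ((td_flip hG hT).adj a) (hT.mem a) hw, map_zero, map_zero, yy_apply _ _ _ (D' w)]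
  abel

/-- the correction has values in `W` -/
theorem Bo2_mem (hG : 𝒟.Good) (hU : U ≤ W) (hU' : U' ≤ W) (hB : Bs 𝒟 τ U ξ)
    (hB' : Bs 𝒟 τ U' ξ') (hT : Td 𝒟 τ U U' T T') (hr : Fd 𝒟 τ W r D' Q) (a : Fin 3) (v : V) :
    Bo2 hG τ ξ ξ' T T' D' Q a v ∈ W := by
  have hY := yd_yy hG hT hU hU'
  have h1 : ∀ w ∈ U, TT ξ Q w ∈ W := fun w hw => by
    rw [TT_apply]
    exact sum_mem fun b _ => hr.mapQ b _ (hU (hB.mapξ b w hw))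
  have h2 : ∀ w ∈ U', TT ξ' Q w ∈ W := fun w hw => by
    rw [TT_apply]
    exact sum_mem fun b _ => hr.mapQ b _ (hU' (hB'.mapξ b w hw))
  rw [Bo2_eq hG hT]
  simp only [LinearMap.add_apply, LinearMap.sub_apply, Module.End.mul_apply, LinearMap.sum_apply]
  refine add_mem (sub_mem (sub_mem (h1 _ (hT.mem _ _)) (h2 _ (hT.mem' _ _))) (hY.mem _ _))
    (sub_mem (sum_mem fun c _ => ?_) (sum_mem fun c _ => ?_))
  · exact sub_mem (hr.mapQ _ _ (hU (hT.mem _ _))) (h1 _ (hB.mapS _ _ (hT.mem _ _)))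
  · exact sub_mem (hr.mapQ _ _ (hU' (hT.mem' _ _))) (h2 _ (hB'.mapS _ _ (hT.mem' _ _)))

/-! ### The families of the kernel -/

omit [FiniteDimensional L V] in
/-- `Γ` commutes with the residues modulo `I` -/
structure CmI (𝒟 : Cfg L V J) (τ : J → V) (W I : Submodule L V) (Γ : End L V) : Prop where
  mapW : ∀ u ∈ W, Γ u ∈ W
  mapI : ∀ u ∈ I, Γ u ∈ I
  sa : ∀ u ∈ W, ∀ v ∈ W, 𝒟.q (Γ u) v = 𝒟.q u (Γ v)
  comm : ∀ a, ∀ u ∈ W, Γ (Res 𝒟 τ a u) - Res 𝒟 τ a (Γ u) ∈ I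

omit [FiniteDimensional L V] in
theorem CmI.of {Γ : End L V} (h : RelG 𝒟 W I τ Γ r) : CmI 𝒟 τ W I Γ :=
  ⟨h.mapW, h.mapI, h.sa, h.comm⟩

omit [FiniteDimensional L V] in
/-- a good base -/
structure Bse (𝒟 : Cfg L V J) (u : J → L) (τ : J → V) (W I : Submodule L V) : Prop where
  hτ : τ ∈ Ku 𝒟 u
  I_eq : I = W ⊓ perp 𝒟.q W
  sumW : ⨆ a, W.map (Res 𝒟 τ a) = W
  wd : ∃ N, words (Res 𝒟 τ) N ≤ W
  op : ∀ r ∈ Ku 𝒟 u, ∀ a, ∀ w ∈ W, opr 𝒟.q (Tt L r) (Gm 𝒟.arm 𝒟.Ω a) (Tt L τ) w ∈ W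
  soc : ∀ w ∈ W, (∀ a, Res 𝒟 τ a w ∈ I) → w ∈ I
  cm : ∀ Γ Γ' : End L V, CmI 𝒟 τ W I Γ → CmI 𝒟 τ W I Γ' → ∀ w ∈ W, Γ (Γ' w) - Γ' (Γ w) ∈ I


section base

variable (hG : 𝒟.Good) (hK : KRel 𝒟.arm 𝒟.q 𝒟.Ω (Tt L '' (Ku 𝒟 u : Set (J → V))))
  (b : Bse 𝒟 u τ W I)

include hG hK b

omit [FiniteDimensional L V] in
theorem Bse.swap (hr : r ∈ Ku 𝒟 u) (a : Fin 3) :
    opr 𝒟.q (Tt L τ) (Gm 𝒟.arm 𝒟.Ω a) (Tt L r) =
      opr 𝒟.q (Tt L r) (Gm 𝒟.arm 𝒟.Ω a) (Tt L τ) :=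
  hK.swap hG.form hG.skew ⟨τ, b.hτ, rfl⟩ ⟨r, hr, rfl⟩ a

omit [FiniteDimensional L V] hG hK in
theorem Bse.mapS (a : Fin 3) {w : V} (hw : w ∈ W) : Res 𝒟 τ a w ∈ W := b.op τ b.hτ a w hw

omit [FiniteDimensional L V] hG hK in
theorem Bse.IW : I ≤ W := b.I_eq.le.trans inf_le_left

omit [FiniteDimensional L V] hG hK in
theorem Bse.perp {x : V} (hx : x ∈ I) {w : V} (hw : w ∈ W) : 𝒟.q x w = 0 :=
  (b.I_eq.le hx).2 w hw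

omit [FiniteDimensional L V] in
/-- the mixed operators preserve `I` -/
theorem Bse.opI (hr : r ∈ Ku 𝒟 u) (a : Fin 3) {x : V} (hx : x ∈ I) :
    opr 𝒟.q (Tt L r) (Gm 𝒟.arm 𝒟.Ω a) (Tt L τ) x ∈ I := by
  have h1 : opr 𝒟.q (Tt L r) (Gm 𝒟.arm 𝒟.Ω a) (Tt L τ) x ∈ W ⊓ H533.perp 𝒟.q W := by
    refine ⟨b.op r hr a x (b.IW hx), fun w hw => ?_⟩
    rw [opr_adj', b.swap hG hK hr]
    exact b.perp hx (b.op r hr a w hw)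
    exact hG
  exact b.I_eq.ge h1

omit [FiniteDimensional L V] in
theorem Bse.SI (a : Fin 3) {x : V} (hx : x ∈ I) : Res 𝒟 τ a x ∈ I :=
  b.opI hG hK b.hτ a hx

omit [FiniteDimensional L V] in
/-- pairing of `R` with `S_a w` -/
theorem Bse.pair (hR : R ∈ Ku 𝒟 u) (a : Fin 3) (w : V) (l : J) :
    𝒟.q (Res 𝒟 τ a w) (R l) =
      𝒟.q (opr 𝒟.q (Tt L R) (Gm 𝒟.arm 𝒟.Ω a) (Tt L τ) w) (τ l) := by
  rw [← Tt_single (L := L) R l, ← Tt_single (L := L) τ l]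
  exact (hK.F1 _ ⟨R, hR, rfl⟩ _ ⟨τ, b.hτ, rfl⟩ _ _).symm

omit [FiniteDimensional L V] in
/-- **Every family of the kernel is good.** -/
theorem Bse.relG {ξ : Fin 3 → End L V} (hξW : ∀ a, ∀ w ∈ W, ξ a w ∈ W)
    (hξ : ∀ w ∈ W, ∑ a, Res 𝒟 τ a (ξ a w) = w) (hR : R ∈ Ku 𝒟 u) :
    RelG 𝒟 W I τ (∑ b, opr 𝒟.q (Tt L R) (Gm 𝒟.arm 𝒟.Ω b) (Tt L τ) * ξ b) R := by
  set E : End L V := ∑ b, opr 𝒟.q (Tt L R) (Gm 𝒟.arm 𝒟.Ω b) (Tt L τ) * ξ b with hE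
  have hEa : ∀ w, E w = ∑ b, opr 𝒟.q (Tt L R) (Gm 𝒟.arm 𝒟.Ω b) (Tt L τ) (ξ b w) := fun w => by
    rw [hE, LinearMap.sum_apply]
    rfl
  have hEW : ∀ w ∈ W, E w ∈ W := fun w hw => by
    rw [hEa]
    exact sum_mem fun c _ => b.op R hR c _ (hξW c w hw)
  have one : ∀ w ∈ W, ∀ l, 𝒟.q w (R l) = 𝒟.q (E w) (τ l) := fun w hw l => by
    conv_lhs => rw [← hξ w hw]
    rw [map_sum, LinearMap.sum_apply, hEa, map_sum, LinearMap.sum_apply]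
    exact Finset.sum_congr rfl fun c _ => b.pair hG hK hR c _ l
  have hS : ∀ a, ∀ w ∈ W, Res 𝒟 τ a (E w) =
      opr 𝒟.q (Tt L R) (Gm 𝒟.arm 𝒟.Ω a) (Tt L τ) w := fun a w hw => by
    rw [← b.swap hG hK hR]
    exact (opr_congr hG (one w hw) τ a).symm
  have hES : ∀ a, ∀ w ∈ W, E (Res 𝒟 τ a w) -
      opr 𝒟.q (Tt L R) (Gm 𝒟.arm 𝒟.Ω a) (Tt L τ) w ∈ I := fun a w hw => by
    refine b.soc _ (sub_mem (hEW _ (b.mapS a hw)) (b.op R hR a w hw)) fun c => ?_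
    have h1 : Res 𝒟 τ c (E (Res 𝒟 τ a w)) =
        Res 𝒟 τ c (opr 𝒟.q (Tt L R) (Gm 𝒟.arm 𝒟.Ω a) (Tt L τ) w) := by
      rw [hS c _ (b.mapS a hw), ← b.swap hG hK hR]
      exact opr_congr hG (b.pair hG hK hR a w) τ c
    rw [map_sub, h1, sub_self]
    exact I.zero_mem
  refine ⟨hEW, fun x hx => b.soc _ (hEW x (b.IW hx)) fun c => ?_, fun x hx v hv => ?_,
    fun a w hw => ?_, one, fun a w hw => ?_⟩
  · rw [hS c x (b.IW hx)]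
    exact b.opI hG hK hR c hx
  · conv_lhs => rw [← hξ v hv]
    rw [map_sum, hEa v, map_sum]
    refine Finset.sum_congr rfl fun c _ => ?_
    rw [← SA_Res hG, hS c x hx, opr_adj' hG, b.swap hG hK hR]
  · rw [hS a w hw]
    exact hES a w hw
  · rw [hS a w hw, sub_self]
    exact I.zero_mem

omit hG hK in
/-- a section -/
theorem Bse.exists_xi : ∃ ξ : Fin 3 → End L V, Bs 𝒟 τ W ξ := by
  obtain ⟨ξ, h1, h2⟩ := Vale.Agent.P182.H58.Glue7.exists_sec (S := Res 𝒟 τ) (U := W) b.sumW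
  exact ⟨ξ, fun a w hw => b.mapS a hw, fun a w _ => h1 a w, h2⟩

/-- **The flow preserves `W` and `I`, and has all the properties needed.** -/
theorem Bse.flowG {ξ : Fin 3 → End L V} (hB : Bs 𝒟 τ W ξ) (hY : Yd 𝒟 τ W Y)
    (hYS : ∀ a, ∀ w ∈ W, Y a (Res 𝒟 τ a w) - Res 𝒟 τ a (Y a w) ∈ I)
    (hF : Flow 𝒟 u τ Y η n R) :
    FlowG 𝒟 W I τ n Y (∑ b, opr 𝒟.q (Tt L R) (Gm 𝒟.arm 𝒟.Ω b) (Tt L τ) * ξ b) R := by
  obtain ⟨N, hN⟩ := b.wd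
  have hnW : ∀ w ∈ W, n.δ w ∈ W := by
    refine der_W (S := Res 𝒟 τ) b.sumW.ge hN hB.mapS n fun a w hw => ?_
    rw [hF.nRes hG hY.sk, add_assoc, add_sub_cancel_left, b.swap hG hK hF.mem]
    exact add_mem (sub_mem (hY.mem _ _) (hB.mapS _ _ (hY.mem _ _)))
      (add_mem (b.op _ hF.mem _ _ hw) (b.op _ hF.mem _ _ hw))
  have hYI : ∀ a, ∀ w ∈ I, Y a w = 0 := fun a w hw => by
    apply hG.form.nondeg
    intro v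
    rw [hY.sk, b.perp hw (hY.mem a v), neg_zero]
  refine ⟨b.IW, fun x hx w hw => b.perp hx hw, fun a w hw => b.mapS a hw,
    fun a w hw => b.SI hG hK a hw, hnW, fun x hx => ?_, hY.sk, fun a w _ => hY.mem a w,
    fun a w hw => ?_, hYS, hF.tau, hF.om, b.relG hG hK hB.mapξ hB.sec hF.mem⟩
  · refine b.I_eq.ge ⟨hnW x (b.IW hx), fun w hw => ?_⟩
    have h1 := n.metric x w
    rw [b.perp hx hw, map_zero, b.perp hx (hnW w hw), add_zero] at h1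
    exact h1.symm
  · rw [hYI a w hw]
    exact I.zero_mem

end base

/-- the family `r` with its operators -/
theorem fd_of_relG (hWS : ∀ a, ∀ w ∈ W, Res 𝒟 τ a w ∈ W) (hIW : I ≤ W) (hG : 𝒟.Good)
    {Γ : End L V} (h : RelG 𝒟 W I τ Γ r) :
    Fd 𝒟 τ W r Γ (fun a => opr 𝒟.q (Tt L r) (Gm 𝒟.arm 𝒟.Ω a) (Tt L τ)) where
  adj w hw l := by rw [hG.form.symm, h.one w hw, hG.form.symm]
  mapD := h.mapW
  op a w _ := rfl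
  mapQ a w hw := by
    have := add_mem (hIW (h.two a w hw)) (hWS a _ (h.mapW w hw))
    rwa [sub_add_cancel] at this

omit [FiniteDimensional L V] in
/-- the new family is good -/
theorem relG_rr (hG : 𝒟.Good) {E Γ : End L V} (hI : I = W ⊓ perp 𝒟.q W)
    (F : FlowG 𝒟 W I τ n Y E R) (h : RelG 𝒟 W I τ Γ r)
    (hΓE : ∀ w ∈ W, Γ (E w) - E (Γ w) ∈ I)
    (hB1 : ∀ a x, ∀ w ∈ W, 𝒟.q (B a x) w = 𝒟.q x (Γ (Y a w) - Y a (Γ w)))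
    (hBW : ∀ a, ∀ w ∈ W, B a w ∈ W) (hd : Dsc 𝒟 τ Y η r B) (hF : Flow 𝒟 u τ Y η n R) :
    RelG 𝒟 W I τ (brk n Γ + E * Γ) (rr 𝒟 n Y B τ r) := by
  refine h.flow hG F hΓE hB1 (hB2_of F (fun x hx hx' => ?_) h hB1 hBW) (fun l => ?_)
    (fun l => ?_)
  · rw [hI]
    exact ⟨hx, hx'⟩
  · rw [rr_apply]; abel
  · rw [hd.om_rr hF]; abel


/-- **The flow with two sections** (P1 of helper534) -/
structure Flow2 (hG : 𝒟.Good) (u : J → L) (W I : Submodule L V) (τ : J → V)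
    (T T' ξ ξ' : Fin 3 → End L V) (n : H533.Conn 𝒟.q) (R : J → V) : Prop where
  memR : R ∈ Ku 𝒟 u
  flag : ∀ s i, ∀ v ∈ 𝒟.F s i, n.δ v - (T s - T' s) v ∈ 𝒟.F s i
  tau : ∀ l, n.δ (τ l) = (T (𝒟.arm l) - T' (𝒟.arm l)) (τ l) + R l
  om : ∀ l, n.δ (𝒟.om τ l) = (T (𝒟.arm l) - T' (𝒟.arm l)) (𝒟.om τ l) + 𝒟.om R l
  nW : ∀ w ∈ W, n.δ w ∈ W
  nI : ∀ w ∈ I, n.δ w ∈ I
  fam : ∀ r ∈ Uu V u, (∃ Γ, RelG 𝒟 W I τ Γ r) → ∃ r1 ∈ Uu V u, (∃ Γ, RelG 𝒟 W I τ Γ r1) ∧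
    ∀ l, n.δ (r l) = r1 l + BB hG τ ξ ξ' T T'
          (fun a => opr 𝒟.q (Tt L r) (Gm 𝒟.arm 𝒟.Ω a) (Tt L τ)) (𝒟.arm l) (τ l) ∧
      n.δ (𝒟.om r l) = 𝒟.om r1 l + BB hG τ ξ ξ' T T'
          (fun a => opr 𝒟.q (Tt L r) (Gm 𝒟.arm 𝒟.Ω a) (Tt L τ)) (𝒟.arm l) (𝒟.om τ l)

/-- `[T'_a, S_a]` has values in `I` on `W` -/
theorem td_comm (hG : 𝒟.Good) (b : Bse 𝒟 u τ W I) (hU : U ≤ W) (hU' : U' ≤ W)
    (hT : Td 𝒟 τ U U' T T') (hTS : ∀ a, ∀ w ∈ W, T a (Res 𝒟 τ a w) - Res 𝒟 τ a (T a w) ∈ I)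
    (a : Fin 3) {w : V} (hw : w ∈ W) :
    T' a (Res 𝒟 τ a w) - Res 𝒟 τ a (T' a w) ∈ I := by
  refine b.I_eq.ge ⟨sub_mem (hU' (hT.mem' _ _)) (b.mapS a (hU' (hT.mem' _ _))),
    fun v hv => ?_⟩
  have h1 := b.perp (hTS a v hv) hw
  rw [map_sub, LinearMap.sub_apply, (td_flip hG hT).adj, SA_Res hG, SA_Res hG,
    (td_flip hG hT).adj, hG.form.symm w, hG.form.symm w, ← LinearMap.sub_apply, ← map_sub,
    ← neg_sub, map_neg, LinearMap.neg_apply, h1, neg_zero]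

/-- **The two-section flow, with all its properties.** -/
theorem exists_flow2_full (hG : 𝒟.Good) (hR : RealL 𝒟 u σ)
    (hK : KRel 𝒟.arm 𝒟.q 𝒟.Ω (Tt L '' (Ku 𝒟 u : Set (J → V)))) (b : Bse 𝒟 u τ W I)
    (hU : U ≤ W) (hU' : U' ≤ W) (hB : Bs 𝒟 τ U ξ) (hB' : Bs 𝒟 τ U' ξ')
    (hT : Td 𝒟 τ U U' T T')
    (hTS : ∀ a, ∀ w ∈ W, T a (Res 𝒟 τ a w) - Res 𝒟 τ a (T a w) ∈ I) :
    ∃ n R E, Flow 𝒟 u τ (yy T T') (Et2 hG τ ξ ξ' T T') n R ∧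
      FlowG 𝒟 W I τ n (yy T T') E R ∧
      ∀ r ∈ Uu V u, ∀ Γ, RelG 𝒟 W I τ Γ r →
        rr 𝒟 n (yy T T') (Bo2 hG τ ξ ξ' T T' Γ
          (fun a => opr 𝒟.q (Tt L r) (Gm 𝒟.arm 𝒟.Ω a) (Tt L τ))) τ r ∈ Uu V u ∧
        RelG 𝒟 W I τ (brk n Γ + E * Γ) (rr 𝒟 n (yy T T') (Bo2 hG τ ξ ξ' T T' Γ
          (fun a => opr 𝒟.q (Tt L r) (Gm 𝒟.arm 𝒟.Ω a) (Tt L τ))) τ r) := by
  obtain ⟨ζ, hζ⟩ := b.exists_xi
  have hWS : ∀ a, ∀ w ∈ W, Res 𝒟 τ a w ∈ W := fun a w hw => b.mapS a hw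
  have hY := yd_yy hG hT hU hU'
  obtain ⟨n, R, hF⟩ := exists_flowT hG hR.toRealU b.hτ hU hU' hWS hB hB' hT
  have hYS : ∀ a, ∀ w ∈ W, yy T T' a (Res 𝒟 τ a w) - Res 𝒟 τ a (yy T T' a w) ∈ I := by
    intro a w hw
    have h1 := sub_mem (hTS a w hw) (td_comm hG b hU hU' hT hTS a hw)
    convert h1 using 1
    rw [yy_apply, yy_apply, map_sub]
    abel
  have hFG := b.flowG hG hK hζ hY hYS hF
  refine ⟨n, R, _, hF, hFG, fun r hr Γ hΓ => ?_⟩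
  have hfd := fd_of_relG hWS b.IW hG hΓ
  have hd := dsc_Et2 hG hU hU' hB hB' hT hfd
  refine ⟨hd.rr_mem hR (Et2_sigma hG ξ ξ' T T' hR.gm b.hτ.2) b.hτ.2 hr hF, ?_⟩
  refine relG_rr hG b.I_eq hFG hΓ (b.cm _ _ (CmI.of hΓ) (CmI.of hFG.rel)) (fun a x w hw => ?_)
    (fun a w _ => Bo2_mem hG hU hU' hB hB' hT hfd a w) hd hF
  rw [q_Bo2, Bad2_W hG hU hU' hB hB' hT hfd a hw]

/-- **The two-section flow exists** (P1 of helper534). -/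
theorem exists_flow2 (hG : 𝒟.Good) (hR : RealL 𝒟 u σ)
    (hK : KRel 𝒟.arm 𝒟.q 𝒟.Ω (Tt L '' (Ku 𝒟 u : Set (J → V)))) (b : Bse 𝒟 u τ W I)
    (hU : U ≤ W) (hU' : U' ≤ W) (hB : Bs 𝒟 τ U ξ) (hB' : Bs 𝒟 τ U' ξ')
    (hT : Td 𝒟 τ U U' T T')
    (hTS : ∀ a, ∀ w ∈ W, T a (Res 𝒟 τ a w) - Res 𝒟 τ a (T a w) ∈ I) :
    ∃ n R, Flow2 hG u W I τ T T' ξ ξ' n R := by
  obtain ⟨n, R, E, hF, hFG, h⟩ := exists_flow2_full hG hR hK b hU hU' hB hB' hT hTS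
  have hWS : ∀ a, ∀ w ∈ W, Res 𝒟 τ a w ∈ W := fun a w hw => b.mapS a hw
  refine ⟨n, R, hF.mem, hF.flag, hF.tau, hF.om, hFG.nW, hFG.nI, fun r hr ⟨Γ, hΓ⟩ => ?_⟩
  obtain ⟨h1, h2⟩ := h r hr Γ hΓ
  have hfd := fd_of_relG hWS b.IW hG hΓ
  exact ⟨_, h1, ⟨_, h2⟩, fun l => ⟨rr_BB hG hU hU' hT hfd l,
    om_rr_BB hG hU hU' hB hB' hT hfd hF l⟩⟩

/-- **The one-section flow, with all its properties.** -/
theorem exists_flow1 (hG : 𝒟.Good) (hR : RealL 𝒟 u σ)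
    (hK : KRel 𝒟.arm 𝒟.q 𝒟.Ω (Tt L '' (Ku 𝒟 u : Set (J → V)))) (b : Bse 𝒟 u τ W I)
    (hB : Bs 𝒟 τ W ξ) (hY : Yd 𝒟 τ W Y)
    (hYS : ∀ a, ∀ w ∈ W, Y a (Res 𝒟 τ a w) - Res 𝒟 τ a (Y a w) ∈ I) :
    ∃ n R E, Flow 𝒟 u τ Y (Et hG τ ξ Y) n R ∧ FlowG 𝒟 W I τ n Y E R ∧
      ∀ r ∈ Uu V u, ∀ Γ, RelG 𝒟 W I τ Γ r → ∃ B : Fin 3 → End L V,
        (∀ a v, B a v ∈ W) ∧
        (∀ a, ∀ w ∈ W, B a w - (Γ (Y a w) - Y a (Γ w)) ∈ I) ∧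
        (∀ a x, ∀ w ∈ W, 𝒟.q (B a x) w = 𝒟.q x (Γ (Y a w) - Y a (Γ w))) ∧
        rr 𝒟 n Y B τ r ∈ Uu V u ∧ RelG 𝒟 W I τ (brk n Γ + E * Γ) (rr 𝒟 n Y B τ r) ∧
        (∀ l, 𝒟.om (rr 𝒟 n Y B τ r) l = n.δ (𝒟.om r l) - Y (𝒟.arm l) (𝒟.om r l) -
          B (𝒟.arm l) (𝒟.om τ l)) ∧
        ∀ y : (J → V) × (J → V), InN 𝒟 y r →
          InN 𝒟 (fun l => n.δ (y.1 l) - Y (𝒟.arm l) (y.1 l) - B (𝒟.arm l) (τ l),
            fun l => n.δ (y.2 l) - Y (𝒟.arm l) (y.2 l) - B (𝒟.arm l) (𝒟.om τ l))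
            (rr 𝒟 n Y B τ r) := by
  have hWS : ∀ a, ∀ w ∈ W, Res 𝒟 τ a w ∈ W := fun a w hw => b.mapS a hw
  obtain ⟨n, R, hF⟩ := exists_flow hG hR.toRealU b.hτ hB hY
  have hFG := b.flowG hG hK hB hY hYS hF
  refine ⟨n, R, _, hF, hFG, fun r hr Γ hΓ => ?_⟩
  have hfd := fd_of_relG hWS b.IW hG hΓ
  have hd := dsc_Et hG hB hY hfd
  have hB1 : ∀ a x, ∀ w ∈ W, 𝒟.q (Bo hG τ ξ Y Γ
      (fun a => opr 𝒟.q (Tt L r) (Gm 𝒟.arm 𝒟.Ω a) (Tt L τ)) a x) w =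
        𝒟.q x (Γ (Y a w) - Y a (Γ w)) := fun a x w hw => by
    rw [q_Bo, Bad_W hG hB hY hfd a hw]
  have hBW : ∀ a v, Bo hG τ ξ Y Γ
      (fun a => opr 𝒟.q (Tt L r) (Gm 𝒟.arm 𝒟.Ω a) (Tt L τ)) a v ∈ W := fun a v =>
    Bo_mem hG hB hY hfd a v
  exact ⟨_, hBW, hB2_of hFG (fun x hx hx' => b.I_eq.ge ⟨hx, hx'⟩) hΓ hB1 (fun a w _ => hBW a w),
    hB1, hd.rr_mem hR (Et_sigma hG ξ Y hR.gm b.hτ.2) b.hτ.2 hr hF,
    relG_rr hG b.I_eq hFG hΓ (b.cm _ _ (CmI.of hΓ) (CmI.of hFG.rel)) hB1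
      (fun a w _ => hBW a w) hd hF, fun l => hd.om_rr hF l, fun y hy => hd.inN hF hY.sk hy⟩

end main

end Vale.Agent.P182.H952
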