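import Vale.Agent.P182.H952.Flow3

/-!
# The flows of the null case with two sections

`T_a` in `U ⊗ U'`, `T'_a` its adjoint, `Y_a = T_a - T'_a`; `ξ` is a section on `U` and `ξ'` on
`U'` (note G of helper534: the intersection of two blocks may be nonzero).
-/

namespace Vale.Agent.P182.H952

open Module Matrix Vale.Agent.P182.H533 Vale.Agent.P182.B1 Vale.Agent.P182.H922
  Vale.Agent.P182.H578 Vale.Agent.P182.H588 Vale.Agent.P182.H338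

section two

variable {L V J : Type*} [Field L] [AddCommGroup V] [Module L V]
  [Fintype J] [DecidableEq J] {𝒟 : Cfg L V J}

/-- tensors `T_a` in `U ⊗ U'` with adjoints `T'_a`, `∑ [T_a, S_a] = 0` -/
structure Td (𝒟 : Cfg L V J) (τ : J → V) (U U' : Submodule L V) (T T' : Fin 3 → End L V) :
    Prop where
  adj : ∀ a u v, 𝒟.q (T a u) v = 𝒟.q u (T' a v)
  mem : ∀ a v, T a v ∈ U
  mem' : ∀ a v, T' a v ∈ U'
  sum : ∑ a, (T a * Res 𝒟 τ a - Res 𝒟 τ a * T a) = 0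

theorem SA_Res (hG : 𝒟.Good) (τ : J → V) (a : Fin 3) : IsSA 𝒟.q (Res 𝒟 τ a) :=
  Sop_SA 𝒟.arm hG.form (Tt L τ) hG.skew a

theorem td_flip (hG : 𝒟.Good) {τ : J → V} {U U' : Submodule L V} {T T' : Fin 3 → End L V}
    (h : Td 𝒟 τ U U' T T') : Td 𝒟 τ U' U T' T where
  adj a u v := by rw [hG.form.symm, ← h.adj, hG.form.symm]
  mem := h.mem'
  mem' := h.mem
  sum := by
    ext v
    apply hG.form.ext
    intro w
    have h1 := congrArg (fun X : End L V => 𝒟.q v (X w)) h.sum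
    simp only [LinearMap.sum_apply, LinearMap.sub_apply, Module.End.mul_apply, map_sum, map_sub,
      LinearMap.zero_apply, map_zero] at h1
    simp only [LinearMap.sum_apply, LinearMap.sub_apply, Module.End.mul_apply, map_sum, map_sub,
      LinearMap.zero_apply, map_zero]
    rw [← neg_eq_zero, ← h1, ← Finset.sum_neg_distrib]
    refine Finset.sum_congr rfl fun a _ => ?_
    have e1 : 𝒟.q (T' a (Res 𝒟 τ a v)) w = 𝒟.q v (Res 𝒟 τ a (T a w)) := by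
      rw [hG.form.symm, ← h.adj, hG.form.symm, SA_Res hG]
    have e2 : 𝒟.q (Res 𝒟 τ a (T' a v)) w = 𝒟.q v (T a (Res 𝒟 τ a w)) := by
      rw [SA_Res hG, hG.form.symm, ← h.adj, hG.form.symm]
    rw [e1, e2]
    ring

/-- the skew operators `Y_a = T_a - T'_a` -/
def yy (T T' : Fin 3 → End L V) : Fin 3 → End L V := fun a => T a - T' a

theorem yy_apply (T T' : Fin 3 → End L V) (a : Fin 3) (v : V) : yy T T' a v = T a v - T' a v :=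
  rfl

theorem yd_yy (hG : 𝒟.Good) {τ : J → V} {U U' W : Submodule L V} {T T' : Fin 3 → End L V}
    (h : Td 𝒟 τ U U' T T') (hU : U ≤ W) (hU' : U' ≤ W) : Yd 𝒟 τ W (yy T T') where
  sk a u v := by
    have := (td_flip hG h).adj a u v
    rw [yy_apply, yy_apply, map_sub, map_sub, LinearMap.sub_apply, h.adj, this]
    ring
  mem a v := sub_mem (hU (h.mem a v)) (hU' (h.mem' a v))
  sum := by
    have h1 := h.sum
    have h2 := (td_flip hG h).sum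
    have e : ∑ a, (yy T T' a * Res 𝒟 τ a - Res 𝒟 τ a * yy T T' a) =
        ∑ a, (T a * Res 𝒟 τ a - Res 𝒟 τ a * T a) -
          ∑ a, (T' a * Res 𝒟 τ a - Res 𝒟 τ a * T' a) := by
      rw [← Finset.sum_sub_distrib]
      refine Finset.sum_congr rfl fun a _ => ?_
      rw [yy]
      noncomm_ring
    rw [e, h1, h2, sub_zero]

variable [FiniteDimensional L V]

/-- half of the linear map of the skew matrix -/
noncomputable def Eh (hG : 𝒟.Good) (τ : J → V) (ξ ξ' T : Fin 3 → End L V) :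
    (J → L) →ₗ[L] (J → L) :=
  ad 𝒟.q (Th hG τ ξ) ∘ₗ (∑ a, T a * Res 𝒟 τ a : End L V) ∘ₗ Th hG τ ξ' -
    ∑ a, ((Gm 𝒟.arm 𝒟.Ω a).mulVecLin ∘ₗ ad 𝒟.q (Tt L τ) ∘ₗ T a ∘ₗ Th hG τ ξ' +
      ad 𝒟.q (Th hG τ ξ) ∘ₗ T a ∘ₗ Tt L τ ∘ₗ (Gm 𝒟.arm 𝒟.Ω a).mulVecLin)

theorem Eh_apply (hG : 𝒟.Good) (τ : J → V) (ξ ξ' T : Fin 3 → End L V) (x : J → L) :
    Eh hG τ ξ ξ' T x =
      ad 𝒟.q (Th hG τ ξ) ((∑ a, T a * Res 𝒟 τ a : End L V) (Th hG τ ξ' x)) -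
      ∑ a, (Gm 𝒟.arm 𝒟.Ω a *ᵥ ad 𝒟.q (Tt L τ) (T a (Th hG τ ξ' x)) +
        ad 𝒟.q (Th hG τ ξ) (T a (Tt L τ (Gm 𝒟.arm 𝒟.Ω a *ᵥ x)))) := by
  rw [Eh, LinearMap.sub_apply, LinearMap.sum_apply]
  rfl

theorem dot_Eh (hG : 𝒟.Good) (τ : J → V) (ξ ξ' T : Fin 3 → End L V) (x y : J → L) :
    x ⬝ᵥ Eh hG τ ξ ξ' T y =
      𝒟.q (Th hG τ ξ x) ((∑ a, T a * Res 𝒟 τ a : End L V) (Th hG τ ξ' y)) -
      ∑ a, (𝒟.q (Tt L τ (Gm 𝒟.arm 𝒟.Ω a *ᵥ x)) (T a (Th hG τ ξ' y)) +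
        𝒟.q (Th hG τ ξ x) (T a (Tt L τ (Gm 𝒟.arm 𝒟.Ω a *ᵥ y)))) := by
  rw [Eh_apply, dotProduct_sub, dotProduct_sum, ← q_T]
  congr 1
  refine Finset.sum_congr rfl fun a _ => ?_
  rw [dotProduct_add, ← dot_Gm hG, ← q_T, ← q_T]

theorem dot_Eh_flip (hG : 𝒟.Good) {τ : J → V} {U U' : Submodule L V} (ξ ξ' : Fin 3 → End L V)
    {T T' : Fin 3 → End L V} (h : Td 𝒟 τ U U' T T') (x y : J → L) :
    x ⬝ᵥ Eh hG τ ξ ξ' T y = y ⬝ᵥ Eh hG τ ξ' ξ T' x := by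
  have hq := hG.form
  have h' := td_flip hG h
  rw [dot_Eh, dot_Eh]
  have h1 : 𝒟.q (Th hG τ ξ x) ((∑ a, T a * Res 𝒟 τ a : End L V) (Th hG τ ξ' y)) =
      𝒟.q (Th hG τ ξ' y) ((∑ a, T' a * Res 𝒟 τ a : End L V) (Th hG τ ξ x)) := by
    have e0 : ∑ a, T a * Res 𝒟 τ a = ∑ a, Res 𝒟 τ a * T a := by
      have := h.sum
      rwa [Finset.sum_sub_distrib, sub_eq_zero] at this
    rw [e0, LinearMap.sum_apply, LinearMap.sum_apply, map_sum, map_sum]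
    refine Finset.sum_congr rfl fun a _ => ?_
    rw [Module.End.mul_apply, Module.End.mul_apply, ← h.adj, ← SA_Res hG, hq.symm]
  rw [h1]
  congr 1
  refine Finset.sum_congr rfl fun a _ => ?_
  rw [add_comm, hq.symm (Th hG τ ξ x), h.adj, hq.symm (Tt L τ (Gm 𝒟.arm 𝒟.Ω a *ᵥ x)), h.adj]

/-- the linear map of the skew matrix -/
noncomputable def Ee2 (hG : 𝒟.Good) (τ : J → V) (ξ ξ' T T' : Fin 3 → End L V) :
    (J → L) →ₗ[L] (J → L) := Eh hG τ ξ ξ' T - Eh hG τ ξ' ξ T'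

theorem dot_Ee2_skew (hG : 𝒟.Good) {τ : J → V} {U U' : Submodule L V} (ξ ξ' : Fin 3 → End L V)
    {T T' : Fin 3 → End L V} (h : Td 𝒟 τ U U' T T') (x y : J → L) :
    x ⬝ᵥ Ee2 hG τ ξ ξ' T T' y = - (Ee2 hG τ ξ ξ' T T' x ⬝ᵥ y) := by
  rw [dotProduct_comm (Ee2 hG τ ξ ξ' T T' x), Ee2, LinearMap.sub_apply, LinearMap.sub_apply,
    dotProduct_sub, dotProduct_sub, dot_Eh_flip hG ξ ξ' h x y,
    dot_Eh_flip hG ξ' ξ (td_flip hG h) x y]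
  ring

/-- the skew matrix -/
noncomputable def Et2 (hG : 𝒟.Good) (τ : J → V) (ξ ξ' T T' : Fin 3 → End L V) : Matrix J J L :=
  LinearMap.toMatrix' (Ee2 hG τ ξ ξ' T T')

theorem Et2_mulVec (hG : 𝒟.Good) (τ : J → V) (ξ ξ' T T' : Fin 3 → End L V) (x : J → L) :
    Et2 hG τ ξ ξ' T T' *ᵥ x = Ee2 hG τ ξ ξ' T T' x := LinearMap.toMatrix'_mulVec _ _

theorem Et2_skew (hG : 𝒟.Good) {τ : J → V} {U U' : Submodule L V} (ξ ξ' : Fin 3 → End L V)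
    {T T' : Fin 3 → End L V} (h : Td 𝒟 τ U U' T T') :
    (Et2 hG τ ξ ξ' T T')ᵀ = -Et2 hG τ ξ ξ' T T' := by
  apply Matrix.ext_of_mulVec_single
  intro j
  apply vext
  intro z
  rw [Matrix.neg_mulVec, dotProduct_neg, Matrix.dotProduct_mulVec, Matrix.vecMul_transpose,
    Et2_mulVec, Et2_mulVec, dot_Ee2_skew hG ξ ξ' h, neg_neg]

/-- the matrix kills the vector `σ` -/
theorem Et2_sigma (hG : 𝒟.Good) {τ : J → V} (ξ ξ' T T' : Fin 3 → End L V) {u σ : J → L}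
    (hσ : ∀ a, ∃ c : L, Gm 𝒟.arm 𝒟.Ω a *ᵥ σ = c • u) (hτ : τ ∈ Uu V u) :
    Et2 hG τ ξ ξ' T T' *ᵥ σ = 0 := by
  have h0 : ∀ a, Tt L τ (Gm 𝒟.arm 𝒟.Ω a *ᵥ σ) = 0 := fun a => by
    obtain ⟨c, hc⟩ := hσ a
    have h0 : Tt L τ u = 0 := by rw [Tt_apply]; exact mem_Uu.1 hτ
    rw [hc, map_smul, h0, smul_zero]
  have h1 : ∀ ξ, Th hG τ ξ σ = 0 := fun ξ => by
    rw [Th_apply]
    exact Finset.sum_eq_zero fun b _ => by rw [h0, map_zero]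
  rw [Et2_mulVec, Ee2, LinearMap.sub_apply, Eh_apply, Eh_apply, h1, h1]
  simp only [h0, map_zero, Matrix.mulVec_zero, add_zero, Finset.sum_const_zero, sub_zero]

section fam

variable {τ : J → V} {U U' W : Submodule L V} {ξ ξ' T T' : Fin 3 → End L V} {r : J → V}
  {D' : End L V} {Q : Fin 3 → End L V}

omit [DecidableEq J] in
theorem q_Th_ad2 [DecidableEq J] (hG : 𝒟.Good) (hU' : U' ≤ W) (hB : Bs 𝒟 τ U' ξ')
    (hr : Fd 𝒟 τ W r D' Q) (v : V) {w : V} (hw : w ∈ U') :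
    𝒟.q (Th hG τ ξ' (ad 𝒟.q (Tt L r) v)) w = 𝒟.q v (TT ξ' Q w) := by
  rw [Th_apply, TT_apply, map_sum, map_sum, LinearMap.sum_apply]
  refine Finset.sum_congr rfl fun b _ => ?_
  rw [adj_left, ← hr.op b _ (hU' (hB.mapξ b w hw)), ← opr_adj1 hG]
  rfl

theorem T_Th_ad (hG : 𝒟.Good) (hU' : U' ≤ W) (hB : Bs 𝒟 τ U' ξ') (hr : Fd 𝒟 τ W r D' Q)
    {X X' : End L V} (hX : ∀ u v, 𝒟.q (X u) v = 𝒟.q u (X' v)) (hX' : ∀ v, X' v ∈ U') (v : V) :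
    X (Th hG τ ξ' (ad 𝒟.q (Tt L r) v)) = X (adj hG.form (TT ξ' Q) v) := by
  apply hG.form.ext
  intro u
  rw [hX, hX, q_Th_ad2 hG hU' hB hr v (hX' u), adj_left]

theorem T_opr_ad (hG : 𝒟.Good) (hU' : U' ≤ W) (hr : Fd 𝒟 τ W r D' Q)
    {X X' : End L V} (hX : ∀ u v, 𝒟.q (X u) v = 𝒟.q u (X' v)) (hX' : ∀ v, X' v ∈ U')
    (a : Fin 3) (v : V) :
    X (Tt L τ (Gm 𝒟.arm 𝒟.Ω a *ᵥ ad 𝒟.q (Tt L r) v)) = X (adj hG.form (Q a) v) := by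
  apply hG.form.ext
  intro u
  rw [hX, hX, adj_left, ← hr.op a _ (hU' (hX' u)), ← opr_adj1 hG]
  rfl

/-- the operator `Z = ∑ T_c (Q_c^* - S_c th'^*)` -/
noncomputable def Zo (hG : 𝒟.Good) (τ : J → V) (ξ' T Q : Fin 3 → End L V) : End L V :=
  ∑ c, T c * (adj hG.form (Q c) - Res 𝒟 τ c * adj hG.form (TT ξ' Q))

/-- half of the matrix on `r^* v` -/
theorem Eh_ad (hG : 𝒟.Good) (hU' : U' ≤ W) (hB' : Bs 𝒟 τ U' ξ') (hT : Td 𝒟 τ U U' T T')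
    (hr : Fd 𝒟 τ W r D' Q) (v : V) :
    Eh hG τ ξ ξ' T (ad 𝒟.q (Tt L r) v) = - ∑ a, Gm 𝒟.arm 𝒟.Ω a *ᵥ
      ad 𝒟.q (Tt L τ) ((T a * adj hG.form (TT ξ' Q) + ξ a * Zo hG τ ξ' T Q) v) := by
  have hSX : ∀ u v, 𝒟.q ((∑ a, T a * Res 𝒟 τ a : End L V) u) v =
      𝒟.q u ((∑ a, Res 𝒟 τ a * T' a : End L V) v) := fun u v => by
    rw [LinearMap.sum_apply, LinearMap.sum_apply, map_sum, map_sum, LinearMap.sum_apply]
    refine Finset.sum_congr rfl fun a _ => ?_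
    rw [Module.End.mul_apply, Module.End.mul_apply, hT.adj]
    exact SA_Res hG τ a _ _
  have hS : ∀ v, (∑ a, Res 𝒟 τ a * T' a : End L V) v ∈ U' := fun v => by
    rw [LinearMap.sum_apply]
    exact sum_mem fun a _ => hB'.mapS a _ (hT.mem' a _)
  rw [Eh_apply, T_Th_ad hG hU' hB' hr hSX hS]
  have h1 : ∀ a, (Gm 𝒟.arm 𝒟.Ω a *ᵥ ad 𝒟.q (Tt L τ) (T a (Th hG τ ξ' (ad 𝒟.q (Tt L r) v))) +
        ad 𝒟.q (Th hG τ ξ) (T a (Tt L τ (Gm 𝒟.arm 𝒟.Ω a *ᵥ ad 𝒟.q (Tt L r) v)))) =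
      Gm 𝒟.arm 𝒟.Ω a *ᵥ ad 𝒟.q (Tt L τ) (T a (adj hG.form (TT ξ' Q) v)) +
        ad 𝒟.q (Th hG τ ξ) (T a (adj hG.form (Q a) v)) := fun a => by
    rw [T_Th_ad hG hU' hB' hr (hT.adj a) (hT.mem' a), T_opr_ad hG hU' hr (hT.adj a) (hT.mem' a)]
  rw [Finset.sum_congr rfl fun a _ => h1 a, Finset.sum_add_distrib, ← map_sum,
    sub_add_eq_sub_sub_swap, ← map_sub]
  have h2 : (∑ a, T a * Res 𝒟 τ a : End L V) (adj hG.form (TT ξ' Q) v) -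
      ∑ x, T x (adj hG.form (Q x) v) = -(Zo hG τ ξ' T Q v) := by
    rw [Zo, LinearMap.sum_apply, LinearMap.sum_apply, ← Finset.sum_sub_distrib,
      ← Finset.sum_neg_distrib]
    refine Finset.sum_congr rfl fun a _ => ?_
    rw [Module.End.mul_apply, Module.End.mul_apply, LinearMap.sub_apply, Module.End.mul_apply,
      map_sub]
    abel
  rw [h2, map_neg, ad_Th, ← Finset.sum_neg_distrib, ← Finset.sum_sub_distrib,
    ← Finset.sum_neg_distrib]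
  refine Finset.sum_congr rfl fun a _ => ?_
  rw [LinearMap.add_apply, Module.End.mul_apply, Module.End.mul_apply, map_add, Matrix.mulVec_add]
  abel

/-- the adjoint of the correction -/
noncomputable def Bad2 (hG : 𝒟.Good) (τ : J → V) (ξ ξ' T T' : Fin 3 → End L V) (D' : End L V)
    (Q : Fin 3 → End L V) (a : Fin 3) : End L V :=
  D' * yy T T' a - (T a * adj hG.form (TT ξ' Q) + ξ a * Zo hG τ ξ' T Q) +
    (T' a * adj hG.form (TT ξ Q) + ξ' a * Zo hG τ ξ T' Q)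

theorem Ee2_ad (hG : 𝒟.Good) (hU : U ≤ W) (hU' : U' ≤ W) (hB : Bs 𝒟 τ U ξ)
    (hB' : Bs 𝒟 τ U' ξ') (hT : Td 𝒟 τ U U' T T') (hr : Fd 𝒟 τ W r D' Q) (v : V) :
    Ee2 hG τ ξ ξ' T T' (ad 𝒟.q (Tt L r) v) = ∑ a, Gm 𝒟.arm 𝒟.Ω a *ᵥ
      (ad 𝒟.q (Tt L τ) (Bad2 hG τ ξ ξ' T T' D' Q a v) -
        ad 𝒟.q (Tt L r) (yy T T' a v)) := by
  have hY := yd_yy hG hT hU hU'
  rw [Ee2, LinearMap.sub_apply, Eh_ad hG hU' hB' hT hr,
    Eh_ad hG hU hB (td_flip hG hT) hr, ← Finset.sum_neg_distrib, ← Finset.sum_neg_distrib,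
    ← Finset.sum_sub_distrib]
  refine Finset.sum_congr rfl fun a _ => ?_
  rw [← Matrix.mulVec_neg, ← Matrix.mulVec_neg, ← Matrix.mulVec_sub]
  congr 1
  have h3 : ad 𝒟.q (Tt L r) (yy T T' a v) = ad 𝒟.q (Tt L τ) (D' (yy T T' a v)) := by
    funext k
    rw [ad_apply, ad_apply, Tt_single, Tt_single, hr.adj _ (hY.mem a v)]
  rw [h3, ← map_sub, neg_sub_neg, ← map_sub]
  congr 1
  rw [Bad2]
  simp only [LinearMap.add_apply, LinearMap.sub_apply, Module.End.mul_apply]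
  abel

/-- the correction -/
noncomputable def Bo2 (hG : 𝒟.Good) (τ : J → V) (ξ ξ' T T' : Fin 3 → End L V) (D' : End L V)
    (Q : Fin 3 → End L V) (a : Fin 3) : End L V := adj hG.form (Bad2 hG τ ξ ξ' T T' D' Q a)

theorem q_Bo2 (hG : 𝒟.Good) (a : Fin 3) (u v : V) :
    𝒟.q (Bo2 hG τ ξ ξ' T T' D' Q a u) v = 𝒟.q u (Bad2 hG τ ξ ξ' T T' D' Q a v) :=
  adj_left _ _ _ _

theorem adj_Zo (hG : 𝒟.Good) (hT : ∀ a, adj hG.form (T a) = T' a) :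
    adj hG.form (Zo hG τ ξ' T Q) = ∑ c, (Q c - TT ξ' Q * Res 𝒟 τ c) * T' c := by
  rw [Zo, adj_sum]
  refine Finset.sum_congr rfl fun c _ => ?_
  rw [adj_mul, adj_sub, adj_mul, adj_adj, adj_adj, adj_SA hG.form (SA_Res hG τ c), hT]

/-- **The explicit correction.** -/
theorem Bo2_eq (hG : 𝒟.Good) (hT : Td 𝒟 τ U U' T T') (a : Fin 3) :
    Bo2 hG τ ξ ξ' T T' D' Q a = TT ξ Q * T a - TT ξ' Q * T' a - yy T T' a * adj hG.form D' +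
      ((∑ c, (Q c - TT ξ Q * Res 𝒟 τ c) * T c) * adj hG.form (ξ' a) -
        (∑ c, (Q c - TT ξ' Q * Res 𝒟 τ c) * T' c) * adj hG.form (ξ a)) := by
  have h1 : ∀ a, adj hG.form (T a) = T' a := fun a => adj_uniq hG.form fun u v => by
    rw [(td_flip hG hT).adj]
  have h2 : ∀ a, adj hG.form (T' a) = T a := fun a => adj_uniq hG.form fun u v => by
    rw [hT.adj]
  have h3 : adj hG.form (yy T T' a) = - yy T T' a := by
    rw [yy, adj_sub, h1, h2]; abel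
  rw [Bo2, Bad2, adj_add, adj_sub, adj_add, adj_add, adj_mul, adj_mul, adj_mul, adj_mul, adj_mul,
    adj_Zo hG h1, adj_Zo hG h2, adj_adj, adj_adj, h1, h2, h3]
  noncomm_ring

end fam

end two

end Vale.Agent.P182.H952
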