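import Vale.Agent.P182.H952.FB
import Vale.Agent.P182.H534.C0d
import Vale.Agent.P182.H533.NB2
import Vale.Agent.P182.H398.NFlow
import Vale.Agent.P182.H746.Twist

/-!
# The pairs of flows for every admissible triple, and row C0
-/

namespace Vale.Agent.P182.H952

open Module Matrix Vale.Agent.P182.H533 Vale.Agent.P182.B1 Vale.Agent.P182.H922
  Vale.Agent.P182.H578 Vale.Agent.P182.H588 Vale.Agent.P182.H181
  Vale.Agent.P182.H983 Vale.Agent.P182.H58.Glue7

universe u v w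

variable {L : Type u} {V : Type v} {J : Type w} [Field L] [AddCommGroup V] [Module L V]
  [Fintype J] [DecidableEq J] {𝒟 : Cfg L V J} {u : J → L} {t t' : J → V} {W I : Submodule L V}
  {k : ℕ} {U : Fin k → Submodule L V} {d : Fin k → L} {p : Fin 3 → ℕ} [FiniteDimensional L V]

theorem adj_ten {q : V →ₗ[L] V →ₗ[L] L} (hq : IsForm q) {A A' : Submodule L V} {T : End L V}
    (hT : T ∈ Ten q A A') : adj hq T ∈ Ten q A' A := by
  refine ⟨fun v => ?_, fun v hv => ?_⟩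
  · have h1 : perp q (perp q A') = A' := H62.perp_perp hq A'
    rw [← h1]
    intro w hw
    rw [adj_left, hT.2 w hw, map_zero]
  · apply hq.nondeg
    intro w
    rw [adj_left]
    exact hv _ (hT.1 w)

/-- **The pairs of flows.** -/
theorem twoRow [CharZero L] (hC : Ctx 𝒟 u) (hM : MaxCoreU 𝒟 u t) (B : Blk 𝒟 u t t' W I U d p)
    {i j : Fin k} (hij : d i ≠ d j) : H534.TwoRow 𝒟 u t t' W I U d i j := by
  have hG := hC.good
  have hK := hC.krel
  have h2 : (2 : L) ≠ 0 := two_ne_zero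
  have hne : i ≠ j := fun e => hij (by rw [e])
  obtain ⟨F, hF1, hF0, hF⟩ := S2.exists_lines B hC
  haveI : Infinite L := Infinite.of_injective ((↑) : ℕ → L) Nat.cast_injective
  obtain ⟨y, hy1, hy2⟩ := (H746.eventually_avoid hij hF1 hF0).exists
  set x : L := 1 with hx
  set x' := H746.mu0 (d i) (d j) y with hx'
  set y' := H746.mu1 (d i) (d j) y with hy'
  have hi' : x' + y' * d i = -(x + y * d i) := H746.mu_left hij y
  have hj' : x' + y' * d j = x + y * d j := H746.mu_right hij y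
  obtain ⟨hu, h5⟩ := hF x y hy1
  obtain ⟨hu', h5'⟩ := hF x' y' hy2
  have hcen : S2.Cen 𝒟 t t' W I x y := fun M m1 m2 m3 => (h5 M m1 m2 m3).1
  have hcen' : S2.Cen 𝒟 t t' W I x' y' := fun M m1 m2 m3 => (h5' M m1 m2 m3).1
  have hCt : H398.Cent 𝒟 (tm t t' x y) W I U d := fun M m1 m2 m3 a b hab v hv w hw => by
    rw [hG.form.symm]
    exact (h5 M m1 m2 m3).2 b a hab.symm w hw v hv
  have hCt' : H398.Cent 𝒟 (tm t t' x' y') W I U d := fun M m1 m2 m3 a b hab v hv w hw => by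
    rw [hG.form.symm]
    exact (h5' M m1 m2 m3).2 b a hab.symm w hw v hv
  have hS := S2.rowS h2 B hC hM hu hcen
  have hS' := S2.rowS h2 B hC hM hu' hcen'
  refine ⟨x, y, hu, fun T hA => ?_⟩
  -- the adjoints and the sections
  have hT : ∀ a, T a ∈ Ten 𝒟.q (U i) (U j) := fun a => ⟨hA.range a, hA.ker a⟩
  have hTd : ∀ a, adj hG.form (T a) ∈ Ten 𝒟.q (U j) (U i) := fun a => adj_ten hG.form (hT a)
  have hadj : ∀ a, IsAdj 𝒟.q (T a) (adj hG.form (T a)) := fun a v w => adj_right hG.form _ _ _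
  obtain ⟨ξ, hξ0, hs⟩ := exists_sec (S := Res 𝒟 (tm t t' x y)) (sumU_tm hG hK B i (hu i))
  obtain ⟨ξ', hξ0', hs'⟩ := exists_sec (S := Res 𝒟 (tm t t' x y)) (sumU_tm hG hK B j (hu j))
  have hξ : ∀ a, ∀ w ∈ U i, ξ a w ∈ U i := fun a w _ => hξ0 a w
  have hξ' : ∀ a, ∀ w ∈ U j, ξ' a w ∈ U j := fun a w _ => hξ0' a w
  have hξd : ∀ a, IsAdj 𝒟.q (ξ a) (adj hG.form (ξ a)) := fun a v w => adj_right hG.form _ _ _
  have hξd' : ∀ a, IsAdj 𝒟.q (ξ' a) (adj hG.form (ξ' a)) := fun a v w =>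
    adj_right hG.form _ _ _
  -- the data at both points
  have D : H533.C0.Dat 𝒟 u t t' W I U d p i j T (fun a => adj hG.form (T a)) x y :=
    ⟨hG, hK, B, hij, hA, fun a v w => adj_left hG.form _ _ _, hu⟩
  have D' := D.swap hu' hi' hj'
  have hA' := D'.adm
  have hSi : ∀ a, ∀ w ∈ U i, Res 𝒟 (tm t t' x' y') a w = Res 𝒟 (tm t t' x y) a w :=
    fun a w hw => by rw [Res_tm hG hK B hw, Res_tm hG hK B hw, hi', neg_sq]
  have hSj : ∀ a, ∀ w ∈ U j, Res 𝒟 (tm t t' x' y') a w = Res 𝒟 (tm t t' x y) a w :=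
    fun a w hw => by rw [Res_tm hG hK B hw, Res_tm hG hK B hw, hj']
  have hs1 : ∀ w ∈ U i, ∑ a, Res 𝒟 (tm t t' x' y') a (ξ a w) = w := fun w hw => by
    rw [← hs w hw]
    exact Finset.sum_congr rfl fun a _ => by rw [hSi a _ (hξ0 a _), hs w hw]
  have hs1' : ∀ w ∈ U j, ∑ a, Res 𝒟 (tm t t' x' y') a (ξ' a w) = w := fun w hw => by
    rw [← hs' w hw]
    exact Finset.sum_congr rfl fun a _ => by rw [hSj a _ (hξ0' a _), hs' w hw]
  -- the flows
  obtain ⟨n, R, E, hFB, hFG⟩ := exists_FB hC hM B hu hcen hne hT hTd hadj hA.sum hA.comm hξ hξ'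
    hs hs' hξd hξd'
  obtain ⟨n', R', E', hFB', hFG'⟩ := exists_FB hC hM B hu' hcen' hne hT hTd hadj hA'.sum hA'.comm
    hξ hξ' hs1 hs1' hξd hξd'
  have TF1 : H398.NBlk.TF 𝒟 u W I (U i) (U j) (tm t t' x y) T (fun a => adj hG.form (T a)) n R :=
    ⟨hA, hadj, ⟨hFB.memR, hFB.tau, hFB.om, hFG.nW⟩⟩
  have TF2 : H398.NBlk.TF 𝒟 u W I (U i) (U j) (tm t t' x' y') T (fun a => adj hG.form (T a)) n' R' :=
    ⟨hA', hadj, ⟨hFB'.memR, hFB'.tau, hFB'.om, hFG'.nW⟩⟩
  have hsqi : (x' + y' * d i) ^ 2 = (x + y * d i) ^ 2 := by rw [hi', neg_sq]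
  have hsqj : (x' + y' * d j) ^ 2 = (x + y * d j) ^ 2 := by rw [hj']
  have hW := H258.chain_WF hG B hK hne hi' hj' (hu i) (hu j) hS hS' hT
    (Td := fun a => adj hG.form (T a)) (fun a v w => adj_right hG.form _ _ _) hA.sum hA.comm
  refine ⟨x', y', fun a => adj hG.form (T a), ξ, ξ', fun a => adj hG.form (ξ a),
    fun a => adj hG.form (ξ' a), n, n', R, R', ?_, ?_, ?_⟩
  · exact
      { dij := hij
        hi := hu i
        hj := hu j
        hi' := hi'
        hj' := hj'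
        T_mem := hT
        Td_mem := hTd
        adj := hadj
        TW := hW.1
        TdW := hW.2
        F := hFB
        F' := hFB'
        N := ⟨hFG.nI, H398.NBlk.TF.mapUj hG hK B TF1 hne hu hCt,
          H398.NBlk.TF.mapUi hG hK B TF1 hne hu hCt,
          fun m hmi hmj => H398.NBlk.TF.mapUk hG hK B TF1 hu hCt hmi hmj⟩
        N' := ⟨hFG'.nI, H398.NBlk.TF.mapUj hG hK B TF2 hne hu' hCt',
          H398.NBlk.TF.mapUi hG hK B TF2 hne hu' hCt',
          fun m hmi hmj => H398.NBlk.TF.mapUk hG hK B TF2 hu' hCt' hmi hmj⟩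
        diffj := H398.NBlk.TF.diff hG hK B TF1 TF2 hne hu hCt hu' hCt' hsqi hsqj
        diffi := H398.NBlk.TF.diff' hG hK B TF1 TF2 hne hu hCt hu' hCt' hsqi hsqj
        par := fun r _ _ a l => H534.par_of_blk hG hK B hi' hj' hT hTd hξ hξ' hξd hξd' r a l }
  · intro a v hv
    obtain ⟨c, -, hc⟩ := H398.NBlk.TF.rule hG hK B TF1 hne hu
    rw [hc a v hv]
    exact (U j).smul_mem _ (mapU_tm hG hK B x y j a hv)
  · intro r _ hΓ
    exact H534.near_of_blk hG hK B (hu i) (hu j) hT hTd hξ hξ' hξd hξd' hs hs' hΓ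

/-- **Row C0**, from row OFF. -/
theorem rowC0 [CharZero L] (hC : Ctx 𝒟 u) (hM : MaxCoreU 𝒟 u t) (B : Blk 𝒟 u t t' W I U d p)
    (hOFF : H534.OffRow 𝒟 u t W I U d) : RowC0 𝒟 u t W I :=
  H534.rowC0_of_two hC.good hC.krel B hOFF fun _ _ hij => twoRow hC hM B hij

end Vale.Agent.P182.H952
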